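import Vale.Agent.P327.Full.Law

/-! # Full rigidity: assembling the blocks -/

namespace Vale.Agent.P327.Full

open Filter Set PiNat TopologicalSpace

theorem hasMach_of_base (hM : MachPin) (hL : LinkPin) {π : Auto} (𝒜 : Atlas π) {v : Cantor}
    {i : 𝒜.ι} {c : Cantor} {L : ℕ} {s : ℕ → ℕ} (hB : Base 𝒜 v i c L s) : HasMach 𝒜 v s := by
  intro l U hUo hUne hU P hP
  obtain ⟨P₁, R, C, hP₁, hRo, hRne, hRB, hR⟩ := hM π 𝒜 v i c L s hB P hP
  obtain ⟨y, c', m, hy, hc', hlink⟩ :=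
    hL π 𝒜 v l i U R hUo hUne hU hRo hRne (hB.fat.mono subset_rfl hRB)
  obtain ⟨P₂, e, hP₂, he, hmove, -⟩ := hlink P₁ hP₁.2
  have hm : MapsTo (fun a => xr a e) (cylinder y m) R :=
    fun a ha => hc' (mapsTo_xr he ha)
  exact ⟨P₂, cylinder y m, _, hP₁.trans hP₂, (isClopen_cylinder y m).isOpen,
    cylinder_nonempty y m, hy, Mach.comp hmove (hR.upgrade hP₂.1) hm⟩

/-- Every automorphism's inverse sends each set below itself. -/
theorem g_le_self (hA : AtlasPin) (hE : ExactPin) (hM : MachPin) (hL : LinkPin) (hR : RemovePin)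
    (hF : FinishPin) (π : Auto) (v : Cantor) : TLe (π.g v) v := by
  by_contra h
  have h0 : Ok π v zero := ok_zero_iff.2 h
  obtain ⟨𝒜⟩ := hA π
  obtain ⟨i, c, L, s, hB⟩ := hE π 𝒜 v h0
  exact hF π 𝒜 v s hB.smono hB.sprim
    (hR π 𝒜 v s hB.smono hB.sprim (hasMach_of_base hM hL 𝒜 hB)) h0

/-- Rigidity from the blocks. -/
theorem rigid_of_pins (hA : AtlasPin) (hE : ExactPin) (hM : MachPin) (hL : LinkPin) (hR : RemovePin)
    (hF : FinishPin) (f : Cantor → Cantor) (hf : ∀ X Y, TLe (f X) (f Y) ↔ TLe X Y)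
    (hsurj : ∀ Y, ∃ X, TLe (f X) Y ∧ TLe Y (f X)) (A : Cantor) :
    TLe (f A) A ∧ TLe A (f A) := by
  choose g hg using hsurj
  let π : Auto := { f := f, g := g, le_f := hf, fg := hg }
  refine ⟨g_le_self hA hE hM hL hR hF π.inv A, ?_⟩
  have h := (hf _ _).2 (g_le_self hA hE hM hL hR hF π A)
  exact tle_trans (hg A).2 h

end Vale.Agent.P327.Full
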