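import Vale.Agent.P327.Full.Borel

/-! Full rigidity, block ATLAS: countably many continuous charts for every automorphism. -/

namespace Vale.Agent.P327.Full

open Filter Set PiNat

/-- The `n`-th column. -/
def col (n : ℕ) (w : Cantor) : Cantor := fun k => w (Nat.pair n k)

/-- All columns except the `n`-th. -/
def rest (n : ℕ) (w : Cantor) : Cantor := fun j => !decide (j.unpair.1 = n) && w j

theorem continuous_col (n : ℕ) : Continuous (col n) :=
  continuous_pi fun k => continuous_bit (Nat.pair n k)

theorem continuous_rest (n : ℕ) : Continuous (rest n) :=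
  continuous_pi fun j => (continuous_of_discreteTopology
    (f := fun b : Bool => !decide (j.unpair.1 = n) && b)).comp (continuous_bit j)

theorem exists_independent : ∃ w : Cantor, ∀ n, ¬TLe (col n w) (rest n w) := by
  have key : ∀ nF : ℕ × Func,
      ∀ᶠ w in residual Cantor, ¬Red nF.2 (rest nF.1 w) (col nF.1 w) := by
    rintro ⟨n, F⟩
    by_contra hm
    let G := {w | Red F (rest n w) (col n w)}
    have hnm : ¬IsMeagre (G ∩ univ) := fun h => hm (by rw [inter_univ] at h; exact h)
    obtain ⟨V, hVo, hVne, -, hV⟩ := exists_fat_self isOpen_univ hnm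
    have hG : ∀ᶠ w in Mst V, w ∈ G :=
      mst_of_fat hV hVo subset_rfl (isGδ_red F (continuous_rest n) (continuous_col n))
    obtain ⟨x, M, -, hxM⟩ := cylinder_subset_of_open hVo hVne 0
    let t := single (Nat.pair n M)
    have ht : ∀ j < M, t j = false := fun j hj =>
      decide_eq_false (Nat.ne_of_lt (lt_of_lt_of_le hj (Nat.right_le_pair n M)))
    obtain ⟨w, ⟨hw, -⟩, hw'⟩ := hV.exists_mem (isClopen_cylinder x M).isOpen
      (cylinder_nonempty _ _) hxM
      ((tendsto_xr (mapsTo_xr_low ht)).eventually (hG.filter_mono (mst_mono hxM)))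
    have e : rest n (xr w t) = rest n w := by
      funext j
      by_cases hj : j.unpair.1 = n
      · simp [rest, hj]
      · have : j ≠ Nat.pair n M := fun h => hj (by simp [h])
        simp [rest, hj, xr, t, single, this]
    have h' : Red F (rest n (xr w t)) (col n (xr w t)) := hw'
    rw [e] at h'
    have := congrFun (Red.unique hw h') M
    simp [col, xr, t, single] at this
  obtain ⟨w, -, hw⟩ := (dense_of_mem_residual (eventually_countable_forall.2 key)).inter_open_nonempty
    univ isOpen_univ univ_nonempty
  refine ⟨w, fun n h => ?_⟩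
  obtain ⟨F, hF⟩ := tle_iff.1 h
  exact hw (n, F) hF

theorem Auto.g_join_le (π : Auto) (a b : Cantor) :
    TLe (π.g (join a b)) (join (π.g a) (π.g b)) := π.inv.f_join_le a b

theorem Auto.g_le_of_le_join (π : Auto) {a b u x : Cantor} (h : TLe x (join a (π.f u)))
    (hb : TLe (π.g a) b) : TLe (π.g x) (join b u) :=
  tle_trans (tle_trans ((π.g_le _ _).2 h) (π.g_join_le _ _))
    (tle_join (tle_trans hb (tle_join_left _ _)) (tle_trans (π.gf u).1 (tle_join_right _ _)))

/-- On a comeagre set the image is computed from the point and one parameter. -/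
theorem residual_bound (π : Auto) :
    ∃ Z, ∀ᶠ u in residual Cantor, TLe (π.f u) (join u Z) := by
  obtain ⟨w, hw⟩ := exists_independent
  let q : ℕ → Cantor := fun n => π.g (col n w)
  have hq : ∀ n, ¬TLe (q n) (π.g (rest n w)) := fun n h => hw n ((π.g_le _ _).1 h)
  let Y : Cantor → Cantor := fun u => join (π.g w) u
  have hYc : Continuous Y := continuous_join_const' _
  let B : Func → ℕ → Func → Set Cantor := fun F n G =>
    {u | Tot F (Y u)} ∩ {u | Red (Func.comp G F) (Y u) (q n)}
  choose U P hU hP hd hUP using fun p : Func × ℕ => iUnion_open (G := B p.1 p.2) fun G =>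
    (isGδ_tot p.1 hYc).inter (isGδ_red (Func.comp G p.1) hYc continuous_const)
  choose Z hZ using fun F : Func => open_codes (fun n => U (F, n)) (fun n => P (F, n))
    (fun n => hU (F, n)) (fun n => hP (F, n)) fun n => hd (F, n)
  have : Nonempty Func := ⟨Func.dead⟩
  obtain ⟨Zall, hZall⟩ := exists_bound Z
  refine ⟨Zall, ?_⟩
  filter_upwards [eventually_countable_forall.2 hUP,
    eventually_countable_forall.2 fun n => avoid _ _ (hq n)] with u hu hua
  let h := π.f u
  let p : Cantor := fun j => h j.unpair.1 && w j
  have hp : TLe p (join w h) := tle_bin Bool.and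
    (tle_comp (tle_join_right w h) (Primrec.fst.comp Primrec.unpair)) (tle_join_left w h)
  obtain ⟨F, hF⟩ := tle_iff.1 (π.g_le_of_le_join hp (tle_refl (π.g w)))
  change Red F (Y u) (π.g p) at hF
  have iff_n : ∀ n, h n = true ↔ ∃ G, u ∈ B F n G := by
    intro n
    constructor
    · intro hn
      have hc : TLe (col n w) p := by
        show TLe (fun k => w (Nat.pair n k)) p
        have h' := tle_comp (tle_refl p) (p := fun k => Nat.pair n k)
          (Primrec₂.natPair.comp (Primrec.const n) Primrec.id)
        simpa [p, hn] using h'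
      obtain ⟨G, hG⟩ := tle_iff.1 ((π.g_le _ _).2 hc)
      exact ⟨G, Tot.of_red hF, red_comp hF hG⟩
    · rintro ⟨G, -, hG⟩
      by_contra hn
      rw [Bool.not_eq_true] at hn
      have hG' : Red G (π.g p) (q n) := fun j => by
        obtain ⟨k, hk⟩ := hG j
        change G.f (scl F (pre (Y u) k)) j = _ at hk
        rw [red_scl hF k] at hk
        exact ⟨_, hk⟩
      have e : p = fun j => h j.unpair.1 && rest n w j := funext fun j => by
        by_cases hj : j.unpair.1 = n
        · simp [p, rest, hj, hn]
        · simp [p, rest, hj]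
      have hp' : TLe p (join (rest n w) h) := by
        rw [e]
        exact tle_bin Bool.and
          (tle_comp (tle_join_right _ _) (Primrec.fst.comp Primrec.unpair)) (tle_join_left _ _)
      exact hua n (tle_trans (tle_iff.2 ⟨G, hG'⟩) (π.g_le_of_le_join hp' (tle_refl _)))
  refine tle_trans (hZ F u h fun n => ?_)
    (tle_join (tle_join_left _ _) (tle_trans (hZall F) (tle_join_right _ _)))
  by_cases hn : h n = true
  · rw [if_pos hn]
    exact (hu (F, n)).1 ((iff_n n).1 hn)
  · rw [if_neg hn]
    exact (hu (F, n)).2 fun hex => hn ((iff_n n).2 hex)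

/-- Every image is computed from the point and one parameter. -/
theorem exists_param (π : Auto) : ∃ Z, ∀ x, TLe (π.f x) (join x Z) := by
  obtain ⟨Z, hZ⟩ := residual_bound π
  refine ⟨Z, fun x => ?_⟩
  by_contra hx
  have hx' : ∀ᶠ g in residual Cantor, TLe (π.f (xr g x)) (join (xr g x) Z) :=
    residual_preimage (continuous_xr_right x) (isOpenMap_xr_right x) hZ
  obtain ⟨g, -, ⟨h₁, h₂⟩, h₃⟩ := (dense_of_mem_residual ((hZ.and hx').and
    (avoid _ _ hx))).inter_open_nonempty univ isOpen_univ univ_nonempty
  refine h₃ ?_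
  have hsplit : TLe x (join g (xr g x)) := by
    have h := tle_xr g (xr g x)
    rwa [show xr g (xr g x) = x from funext fun n => by simp [xr]] at h
  have hgJ : TLe g (join (join x Z) g) := tle_join_right _ _
  have hZJ : TLe Z (join (join x Z) g) := tle_trans (tle_join_right x Z) (tle_join_left _ g)
  have hxJ : TLe x (join (join x Z) g) := tle_trans (tle_join_left x Z) (tle_join_left _ g)
  refine tle_trans ((π.le_f _ _).2 hsplit) (tle_trans (π.f_join_le _ _) (tle_join ?_ ?_))
  · exact tle_trans h₁ (tle_join hgJ hZJ)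
  · exact tle_trans h₂ (tle_join (tle_trans (tle_xr g x) (tle_join hgJ hxJ)) hZJ)

/-- Every automorphism has an atlas. -/
theorem atlas : AtlasPin := by
  intro π
  obtain ⟨Z₁, hZ₁⟩ := exists_param π
  obtain ⟨Z₂, hZ₂⟩ := exists_param π.inv
  let Z := join Z₁ Z₂
  have hf : ∀ x, TLe (π.f x) (join x Z) := fun x => tle_trans (hZ₁ x)
    (tle_join (tle_join_left _ _) (tle_trans (tle_join_left Z₁ Z₂) (tle_join_right _ _)))
  have hx : ∀ x, TLe x (join (π.f x) Z) := fun x => tle_trans (π.gf x).2 (tle_trans (hZ₂ (π.f x))
    (tle_join (tle_join_left _ _) (tle_trans (tle_join_right Z₁ Z₂) (tle_join_right _ _))))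
  let F : Func × Func → Cantor → Cantor := fun i x => out i.1 (join x Z)
  let Tm : Func × Func → Set Cantor := fun i => {x | Tot i.1 (join x Z)}
  have hc : ∀ i, ContinuousOn (F i) (Tm i) := fun i =>
    continuousOn_out i.1 (continuous_join_const Z)
  let Dm : Func × Func → Set Cantor := fun i =>
    {x | x ∈ Tm i ∧ Red i.2 (join (F i x) Z) x}
  refine ⟨{ ι := Func × Func
            count := inferInstance
            Dm := Dm
            A := fun i => {x | x ∈ Dm i ∧ TLe (F i x) (π.f x) ∧ TLe (π.f x) (F i x)}
            F := F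
            gdel := fun i => isGδ_red_on i.2 (isGδ_tot i.1 (continuous_join_const Z))
              ((continuous_join_const Z).comp_continuousOn (hc i)) continuousOn_id
            sub := fun i x hx => hx.1
            cover := fun x => ?_
            val := fun i x hx => hx.2
            cont := fun i => (hc i).mono fun x hx => hx.1
            inv := fun i x hxD k => ?_ }⟩
  · obtain ⟨Φ, hΦ⟩ := tle_iff.1 (hf x)
    obtain ⟨Ψ, hΨ⟩ := tle_iff.1 (hx x)
    have e : F (Φ, Ψ) x = π.f x := out_eq hΦ
    refine ⟨(Φ, Ψ), ⟨Tot.of_red hΦ, ?_⟩, ?_⟩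
    · show Red Ψ (join (F (Φ, Ψ) x) Z) x
      rw [e]; exact hΨ
    · rw [e]; exact ⟨tle_refl _, tle_refl _⟩
  · obtain ⟨K, hK⟩ := hxD.2.at_large k
    refine ⟨K, fun y hy hpre j hj => ?_⟩
    refine ((hy.2).value (k := K) ?_).symm
    have e : pre (join (F i y) Z) K = pre (join (F i x) Z) K :=
      List.map_congr_left fun p hp => by
        have hp' : p < K := List.mem_range.1 hp
        simp only [join]
        split_ifs
        · have h' : (pre (F i y) K).getD (p / 2) false = (pre (F i x) K).getD (p / 2) false := by
            rw [hpre]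
          rwa [pre_getD _ (show p / 2 < K by omega), pre_getD _ (show p / 2 < K by omega)] at h'
        · rfl
    rw [e]
    exact hK K le_rfl j hj

end Vale.Agent.P327.Full
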