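import Vale.Agent.P327.Full.Pins

/-! Full rigidity, blocks REMOVE and FINISH: pointwise operations along a sequence of positions. -/

namespace Vale.Agent.P327.Full

open Filter Set PiNat

/-- A functional with a fixed primitive recursive answer. -/
def posConst (w : ℕ → Bool) (hw : Primrec w) : Func where
  f _ n := some (w n)
  prim := (Primrec.option_some.comp (hw.comp Primrec.snd)).to₂
  mono _ _ _ _ _ h := h

theorem tle_const {w : ℕ → Bool} (hw : Primrec w) (Y : Cantor) : TLe w Y :=
  tle_iff.2 ⟨posConst w hw, fun _ => ⟨0, rfl⟩⟩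

theorem tle_comp {X Z : Cantor} {p : ℕ → ℕ} (hX : TLe X Z) (hp : Primrec p) :
    TLe (fun n => X (p n)) Z := by
  refine tle_trans ?_ hX
  have h := tle_read hp (Primrec.const false) X
  simpa using h

/-- A pointwise Boolean operation on the two halves of the oracle. -/
def posBin (φ : Bool → Bool → Bool) : Func where
  f σ n := σ[2 * n]?.bind fun a => (σ[2 * n + 1]?).map fun b => φ a b
  prim := by
    refine Primrec.option_bind (Primrec.list_getElem?.comp Primrec.fst
      (primrec_double.comp Primrec.snd)) ?_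
    have h₀ : Primrec fun z : (List Bool × ℕ) × Bool => z.1.1[2 * z.1.2 + 1]? :=
      Primrec.list_getElem?.comp (Primrec.fst.comp Primrec.fst)
        (primrec_odd.comp (Primrec.snd.comp Primrec.fst))
    have h₁ : Primrec₂ fun (z : (List Bool × ℕ) × Bool) (b : Bool) => φ z.2 b :=
      ((Primrec.dom_bool₂ φ).comp (Primrec.snd.comp Primrec.fst) Primrec.snd).to₂
    exact (Primrec.option_map h₀ h₁).to₂
  mono σ τ n v h hv := by
    obtain ⟨r, rfl⟩ := h
    simp only [Option.bind_eq_some_iff, Option.map_eq_some_iff] at hv ⊢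
    obtain ⟨a, ha, b, hb, hv⟩ := hv
    exact ⟨a, by rw [List.getElem?_append_left (List.getElem?_eq_some_iff.1 ha).1]; exact ha,
      b, by rw [List.getElem?_append_left (List.getElem?_eq_some_iff.1 hb).1]; exact hb, hv⟩

theorem tle_bin {X Y Z : Cantor} (φ : Bool → Bool → Bool) (hX : TLe X Z) (hY : TLe Y Z) :
    TLe (fun n => φ (X n) (Y n)) Z :=
  tle_trans (tle_iff.2 ⟨posBin φ, fun n =>
    ⟨2 * n + 2, by simp [posBin, join_even, join_odd]⟩⟩) (tle_join hX hY)

/-- The first marked value in each row. -/
def posSearch : Func :=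
  Func.scan (fun σ m n => σ[2 * Nat.pair n m.unpair.2]?.bind fun d =>
    bif d then σ[2 * Nat.pair n m.unpair.2 + 1]? else none) (by
    have hq : Primrec fun p : List Bool × ℕ × ℕ => Nat.pair p.2.2 p.2.1.unpair.2 :=
      Primrec₂.natPair.comp (Primrec.snd.comp Primrec.snd)
        (Primrec.snd.comp (Primrec.unpair.comp (Primrec.fst.comp Primrec.snd)))
    refine Primrec.option_bind
      (Primrec.list_getElem?.comp Primrec.fst (primrec_double.comp hq)) ?_
    exact (Primrec.cond Primrec.snd (Primrec.list_getElem?.comp (Primrec.fst.comp Primrec.fst)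
      (primrec_odd.comp (hq.comp Primrec.fst))) (Primrec.const none)).to₂)

theorem tle_search {C D G Z : Cantor} (hD : TLe D Z) (hG : TLe G Z)
    (sound : ∀ n t, D (Nat.pair n t) = true → G (Nat.pair n t) = C n)
    (compl : ∀ n, ∃ t, D (Nat.pair n t) = true) : TLe C Z := by
  refine tle_trans (tle_iff.2 ⟨posSearch, Red.of_scan ?_ ?_⟩) (tle_join hD hG)
  · intro m n v hv
    simp only [Option.bind_eq_some_iff, pre_getElem?, join_even] at hv
    obtain ⟨d, hd, hv⟩ := hv
    by_cases h1 : 2 * Nat.pair n m.unpair.2 < m.unpair.1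
    · rw [if_pos h1, Option.some.injEq] at hd
      subst hd
      cases hd' : D (Nat.pair n m.unpair.2)
      · simp [hd'] at hv
      · simp only [hd', cond_true, join_odd] at hv
        split_ifs at hv
        rw [← Option.some.inj hv, sound _ _ hd']
    · simp [h1] at hd
  · intro n
    obtain ⟨t, ht⟩ := compl n
    exact ⟨Nat.pair (2 * Nat.pair n t + 2) t, G (Nat.pair n t), by
      simp [join_even, join_odd, ht]⟩

/-! ## Positions -/

/-- The index of the last position not above `n`. -/
def posIdx (s : ℕ → ℕ) (n : ℕ) : ℕ := Nat.findGreatest (fun k => s k ≤ n) n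

theorem posIdx_apply {s : ℕ → ℕ} (hs : StrictMono s) (j : ℕ) : posIdx s (s j) = j :=
  Nat.findGreatest_eq_iff.2
    ⟨hs.id_le j, fun _ => le_refl (s j), fun _ hn _ => not_le.2 (hs hn)⟩

theorem primrec_posIdx {s : ℕ → ℕ} (hs : Primrec s) : Primrec (posIdx s) :=
  Primrec.nat_findGreatest (p := fun n k => s k ≤ n) Primrec.id
    (Primrec.nat_le.comp₂ (hs.comp Primrec.snd).to₂ Primrec₂.left)

/-- Spreading `v` along the positions. -/
theorem tle_spread {s : ℕ → ℕ} (hs : Primrec s) (v : Cantor) : TLe (fun n => v (posIdx s n)) v :=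
  tle_comp (tle_refl v) (primrec_posIdx hs)

/-- The correction term of the mixing operation. -/
def mixTerm (s : ℕ → ℕ) (x r : Cantor) : Cantor := fun j =>
  decide (s (posIdx s j) = j) && (x (s (posIdx s j).unpair.1) && r j)

/-- The operation used to remove the constant. -/
def mix (s : ℕ → ℕ) (a : Cantor × Cantor × Cantor) : Cantor := xr a.2.2 (mixTerm s a.1 a.2.1)

theorem mix_apply {s : ℕ → ℕ} (hs : StrictMono s) (x r w : Cantor) (q : ℕ) :
    mix s (x, r, w) (s q) = xor (w (s q)) (x (s q.unpair.1) && r (s q)) := by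
  simp [mix, mixTerm, xr, posIdx_apply hs]

theorem tle_mix {s : ℕ → ℕ} (hs : Primrec s) (x r w : Cantor) :
    TLe (mix s (x, r, w)) (join x (join r w)) := by
  have hx : TLe x (join x (join r w)) := tle_join_left _ _
  have hr : TLe r (join x (join r w)) := tle_trans (tle_join_left _ _) (tle_join_right _ _)
  have hw : TLe w (join x (join r w)) := tle_trans (tle_join_right _ _) (tle_join_right _ _)
  refine tle_bin Bool.xor hw (tle_bin Bool.and ?_ (tle_bin Bool.and ?_ hr))
  · exact tle_const (Primrec.eq.comp (hs.comp (primrec_posIdx hs)) Primrec.id).decide _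
  · exact tle_comp hx (hs.comp (Primrec.fst.comp (Primrec.unpair.comp (primrec_posIdx hs))))

theorem continuous_mixTerm (s : ℕ → ℕ) :
    Continuous fun p : Cantor × Cantor => mixTerm s p.1 p.2 := by
  refine continuous_pi fun j => ?_
  exact (continuous_of_discreteTopology
    (f := fun b : Bool × Bool => decide (s (posIdx s j) = j) && (b.1 && b.2))).comp
    (((continuous_bit (s (posIdx s j).unpair.1)).comp continuous_fst).prodMk
      ((continuous_bit j).comp continuous_snd))

theorem continuous_xr' {Y : Type*} [TopologicalSpace Y] {f g : Y → Cantor} (hf : Continuous f)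
    (hg : Continuous g) : Continuous fun y => xr (f y) (g y) :=
  continuous_pi fun n => (continuous_of_discreteTopology
    (f := fun z : Bool × Bool => xor z.1 z.2)).comp
    (((continuous_bit n).comp hf).prodMk ((continuous_bit n).comp hg))

theorem continuous_mix (s : ℕ → ℕ) : Continuous (mix s) :=
  continuous_xr' (continuous_snd.comp continuous_snd)
    ((continuous_mixTerm s).comp (continuous_fst.prodMk (continuous_fst.comp continuous_snd)))

theorem isOpenMap_mix (s : ℕ → ℕ) : IsOpenMap (mix s) := by
  let Φ : Cantor × Cantor × Cantor → Cantor × Cantor × Cantor := fun a => (a.1, a.2.1, mix s a)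
  have hc : Continuous Φ :=
    continuous_fst.prodMk ((continuous_fst.comp continuous_snd).prodMk (continuous_mix s))
  have hi : ∀ a, Φ (Φ a) = a := fun a => by
    refine Prod.ext rfl (Prod.ext rfl ?_)
    funext n
    simp [Φ, mix, xr]
  have ho : IsOpenMap Φ := IsOpenMap.of_inverse hc hi hi
  exact isOpenMap_snd.comp (isOpenMap_snd.comp ho)

/-- Almost every `y` differs from `r` somewhere in every row. -/
theorem eventually_rows {s : ℕ → ℕ} (hs : StrictMono s) (r : Cantor) :
    ∀ᶠ y in residual Cantor, ∀ n, ∃ t,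
      xor (r (s (Nat.pair n t))) (y (s (Nat.pair n t))) = true := by
  refine eventually_countable_forall.2 fun n => ?_
  refine residual_of_dense_open ?_ ?_
  · refine isOpen_iff_mem_nhds.2 fun y ⟨t, ht⟩ => ?_
    refine Filter.mem_of_superset
      ((isClopen_cylinder y (s (Nat.pair n t) + 1)).isOpen.mem_nhds (self_mem_cylinder _ _))
      fun z hz => ⟨t, ?_⟩
    rw [hz _ (Nat.lt_succ_self _)]
    exact ht
  · refine dense_iff_inter_open.2 fun O hO ⟨z, hz⟩ => ?_
    obtain ⟨N, -, hN⟩ := exists_cylinder_subset hO hz 0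
    have hq : N ≤ s (Nat.pair n N) := le_trans (Nat.right_le_pair n N) (hs.id_le _)
    refine ⟨fun j => if j < N then z j else !r j, hN fun j hj => by simp [hj], N, ?_⟩
    simp [not_lt.2 hq]

end Vale.Agent.P327.Full
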