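import Vale.Agent.P327.Full.Tools
import Vale.Agent.P327.Full.RemoveOps

/-! Full rigidity, block EXACT, parameter-free part: masks by the nodes along a point. -/

namespace Vale.Agent.P327.Full

open Filter Set PiNat

/-- The number of a finite string. -/
def enc (l : List Bool) : ℕ := Encodable.encode l

theorem length_le_enc : ∀ l : List Bool, l.length ≤ enc l
  | [] => Nat.zero_le _
  | a :: l => by
    show l.length + 1 ≤ Nat.succ (Nat.pair (Encodable.encode a) (Encodable.encode l))
    exact Nat.succ_le_succ (le_trans (length_le_enc l) (Nat.right_le_pair _ _))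

theorem enc_lt_append (a : Bool) : ∀ l : List Bool, enc l < enc (l ++ [a])
  | [] => Nat.succ_pos _
  | b :: l => by
    show Nat.succ (Nat.pair (Encodable.encode b) (enc l)) <
      Nat.succ (Nat.pair (Encodable.encode b) (enc (l ++ [a])))
    exact Nat.succ_lt_succ (Nat.pair_lt_pair_right _ (enc_lt_append a l))

theorem enc_pre_strictMono (x : Cantor) : StrictMono fun k => enc (pre x k) :=
  strictMono_nat_of_lt_succ fun k => by
    show enc (pre x k) < enc (pre x (k + 1))
    rw [pre_succ]
    exact enc_lt_append _ _

/-- The level of a node. -/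
def lev (n : ℕ) : ℕ := min n ((Encodable.decode (α := List Bool) n).getD []).length

theorem lev_le (n : ℕ) : lev n ≤ n := min_le_left _ _

theorem lev_enc (l : List Bool) : lev (enc l) = l.length := by
  simp only [lev, enc, Encodable.encodek, Option.getD_some]
  exact min_eq_right (length_le_enc l)

theorem primrec_lev : Primrec lev :=
  Primrec.nat_min.comp Primrec.id (Primrec.list_length.comp
    (Primrec.option_getD.comp Primrec.decode (Primrec.const [])))

/-- Whether the node `n` lies along `c`. -/
def along (c : Cantor) (n : ℕ) : Bool := decide (n = enc (pre c (lev n)))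

/-- Keep `a` at the nodes along `c`. -/
def mask (c a : Cantor) : Cantor := fun n => along c n && a n

theorem pre_congr {c c' : Cantor} {L k : ℕ} (h : c' ∈ cylinder c L) (hk : k ≤ L) :
    pre c' k = pre c k :=
  List.map_congr_left fun i hi => h i (lt_of_lt_of_le (List.mem_range.1 hi) hk)

theorem mask_congr {c c' a a' : Cantor} {L n : ℕ} (hc : c' ∈ cylinder c L)
    (ha : a' ∈ cylinder a L) (hn : n < L) : mask c' a' n = mask c a n := by
  simp only [mask, along, ha n hn, pre_congr hc (le_trans (lev_le n) hn.le)]

theorem mask_xr (c a b : Cantor) : mask c (xr a b) = xr (mask c a) (mask c b) := by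
  funext n
  simp only [mask, xr]
  cases along c n <;> simp

theorem mask_low {c a : Cantor} {L : ℕ} (ha : ∀ j < L, a j = false) :
    ∀ j < L, mask c a j = false := fun j hj => by simp [mask, ha j hj]

/-- The operation of the exact translations. -/
def nodeOp (p : Cantor × Cantor × Cantor) : Cantor := xr p.2.2 (mask p.2.1 p.1)

theorem continuous_mask : Continuous fun p : Cantor × Cantor => mask p.1 p.2 := by
  refine continuous_pi fun n => ?_
  let G : (Fin (lev n) → Bool) × Bool → Bool := fun z =>
    decide (n = enc ((List.range (lev n)).map fun i =>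
      if h : i < lev n then z.1 ⟨i, h⟩ else false)) && z.2
  have e : (fun p : Cantor × Cantor => mask p.1 p.2 n) =
      fun p => G (fun i : Fin (lev n) => p.1 i, p.2 n) := by
    funext p
    have ep : pre p.1 (lev n) = (List.range (lev n)).map fun i =>
        if h : i < lev n then (fun i : Fin (lev n) => p.1 i) ⟨i, h⟩ else false :=
      List.map_congr_left fun i hi => by simp [List.mem_range.1 hi]
    simp only [G, mask, along, ep]
  rw [e]
  exact (continuous_of_discreteTopology (f := G)).comp
    ((continuous_pi fun i : Fin (lev n) => (continuous_bit (i : ℕ)).comp continuous_fst).prodMk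
      ((continuous_bit n).comp continuous_snd))

theorem continuous_nodeOp : Continuous nodeOp :=
  continuous_xr' (continuous_snd.comp continuous_snd)
    (continuous_mask.comp ((continuous_fst.comp continuous_snd).prodMk continuous_fst))

theorem isOpenMap_nodeOp : IsOpenMap nodeOp := by
  let Φ : Cantor × Cantor × Cantor → Cantor × Cantor × Cantor :=
    fun a => (a.1, a.2.1, nodeOp a)
  have hc : Continuous Φ :=
    continuous_fst.prodMk ((continuous_fst.comp continuous_snd).prodMk continuous_nodeOp)
  have hi : ∀ a, Φ (Φ a) = a := fun a => by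
    refine Prod.ext rfl (Prod.ext rfl ?_)
    exact xr_cancel_right _ _
  exact isOpenMap_snd.comp (isOpenMap_snd.comp (IsOpenMap.of_inverse hc hi hi))

/-- Cylinder boxes go onto cylinders. -/
theorem nodeOp_image (a c w : Cantor) (L : ℕ) :
    nodeOp '' (cylinder a L ×ˢ cylinder c L ×ˢ cylinder w L) =
      cylinder (nodeOp (a, c, w)) L := by
  ext y
  constructor
  · rintro ⟨⟨a', c', w'⟩, ⟨ha, hc, hw⟩, rfl⟩ j hj
    have e : w' j = w j := hw j hj
    simp [nodeOp, xr, e, mask_congr hc ha hj]
  · intro hy
    refine ⟨(a, c, xr y (mask c a)), ⟨self_mem_cylinder _ _, self_mem_cylinder _ _,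
      fun j hj => ?_⟩, xr_cancel_right _ _⟩
    simp [xr, hy j hj, nodeOp]

/-- Reading the nodes along the oracle. -/
def alongFunc : Func where
  f σ n := bif decide (lev n ≤ σ.length) then some (decide (n = enc (σ.take (lev n)))) else none
  prim := Primrec.cond
    ((Primrec.nat_le.comp (primrec_lev.comp Primrec.snd) (Primrec.list_length.comp Primrec.fst)).decide)
    (Primrec.option_some.comp (Primrec.eq.comp Primrec.snd (Primrec.encode.comp
      (Primrec.list_take.comp (primrec_lev.comp Primrec.snd) Primrec.fst))).decide)
    (Primrec.const none)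
  mono σ τ n v h hv := by
    by_cases hN : lev n ≤ σ.length
    · obtain ⟨r, rfl⟩ := h
      simp only [hN, le_trans hN (List.IsPrefix.length_le ⟨r, rfl⟩), decide_true, cond_true,
        List.take_append_of_le_length hN] at hv ⊢
      exact hv
    · simp [hN] at hv

theorem tle_along (c : Cantor) : TLe (along c) c := by
  refine tle_iff.2 ⟨alongFunc, fun n => ⟨lev n, ?_⟩⟩
  simp [alongFunc, along, pre_take c le_rfl]

theorem tle_mask {c a Z : Cantor} (hc : TLe c Z) (ha : TLe a Z) : TLe (mask c a) Z :=
  tle_bin Bool.and (tle_trans (tle_along c) hc) ha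

theorem tle_nodeOp (a c w : Cantor) : TLe (nodeOp (a, c, w)) (join a (join c w)) :=
  tle_bin Bool.xor (tle_trans (tle_join_right _ _) (tle_join_right _ _))
    (tle_mask (tle_trans (tle_join_left _ _) (tle_join_right _ _)) (tle_join_left _ _))

theorem tle_nodeOp_back (a c w : Cantor) : TLe w (join (nodeOp (a, c, w)) (join a c)) := by
  have h : TLe (xr (nodeOp (a, c, w)) (mask c a)) (join (nodeOp (a, c, w)) (join a c)) :=
    tle_bin Bool.xor (tle_join_left _ _)
      (tle_mask (tle_trans (tle_join_right _ _) (tle_join_right _ _))
        (tle_trans (tle_join_left _ _) (tle_join_right _ _)))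
  rwa [show xr (nodeOp (a, c, w)) (mask c a) = w from xr_cancel_right _ _] at h

/-! ## Branches -/

/-- The branch through `c` up to `L`, then zeros. -/
def branch0 (c : Cantor) (L : ℕ) : Cantor := fun j => (pre c L).getD j false

/-- The positions of the nodes on the branch, from level `L` on. -/
def branchPos (c : Cantor) (L : ℕ) : ℕ → ℕ := fun k => enc (pre (branch0 c L) (L + k))

theorem strictMono_branchPos (c : Cantor) (L : ℕ) : StrictMono (branchPos c L) :=
  fun _ _ h => enc_pre_strictMono _ (Nat.add_lt_add_left h L)

theorem le_branchPos (c : Cantor) (L k : ℕ) : L ≤ branchPos c L k := by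
  have h := length_le_enc (pre (branch0 c L) (L + k))
  rw [pre_length] at h
  exact le_trans (Nat.le_add_right _ _) h

theorem primrec_branchPos (c : Cantor) (L : ℕ) : Primrec (branchPos c L) := by
  have hb : Primrec (branch0 c L) := (Primrec.list_getD false).comp (Primrec.const _) Primrec.id
  exact Primrec.encode.comp (Primrec.list_map
    (Primrec.list_range.comp (Primrec.nat_add.comp (Primrec.const L) Primrec.id))
    (hb.comp Primrec.snd).to₂)

/-- The two sons of the node of level `J` on `x`. -/
def son (x : Cantor) (J : ℕ) (b : Bool) : Cantor := fun j => if j < J then x j else b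

/-- Two branches through both sons of a node share just the nodes up to it. -/
theorem mask_mask_single {x c₀ c₁ d : Cantor} {J : ℕ}
    (h₀ : c₀ ∈ cylinder (son x J false) (J + 1)) (h₁ : c₁ ∈ cylinder (son x J true) (J + 1))
    (hd : ∀ j ≤ enc (pre x J), d j = single (enc (pre x J)) j) :
    mask c₁ (mask c₀ d) = single (enc (pre x J)) := by
  have e₀ : ∀ k ≤ J, pre c₀ k = pre x k := fun k hk =>
    List.map_congr_left fun i hi => by
      have hi' : i < J := lt_of_lt_of_le (List.mem_range.1 hi) hk
      rw [h₀ i (Nat.lt_succ_of_lt hi'), son, if_pos hi']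
  have e₁ : ∀ k ≤ J, pre c₁ k = pre x k := fun k hk =>
    List.map_congr_left fun i hi => by
      have hi' : i < J := lt_of_lt_of_le (List.mem_range.1 hi) hk
      rw [h₁ i (Nat.lt_succ_of_lt hi'), son, if_pos hi']
  funext n
  simp only [mask]
  by_cases hn : n = enc (pre x J)
  · subst hn
    simp [along, lev_enc, e₀ J le_rfl, e₁ J le_rfl, hd _ le_rfl, single]
  · have hs : single (enc (pre x J)) n = false := by simp [single, hn]
    rw [hs]
    by_cases hk : lev n ≤ J
    · by_cases ha : n = enc (pre x (lev n))
      · have hle : n ≤ enc (pre x J) := ha.le.trans ((enc_pre_strictMono x).monotone hk)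
        simp [hd n hle, hs]
      · simp [along, e₁ _ hk, ha]
    · have hJ : J < lev n := not_le.1 hk
      by_cases ha : n = enc (pre c₁ (lev n))
      · have hb : n ≠ enc (pre c₀ (lev n)) := fun hb => by
          have e : pre c₁ (lev n) = pre c₀ (lev n) := Encodable.encode_injective (ha.symm.trans hb)
          have := congrArg (fun l => List.getD l J false) e
          simp only [pre_getD _ hJ, h₀ J (Nat.lt_succ_self _), h₁ J (Nat.lt_succ_self _), son,
            lt_irrefl, if_false] at this
          exact Bool.noConfusion this
        simp [along, hb]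
      · simp [along, ha]

end Vale.Agent.P327.Full
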