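import Vale.Agent.P327.Full.Law
import Vale.Agent.P327.Full.Node

/-! Full rigidity, block ATLAS, preliminaries: values, open approximations, bounds. -/

namespace Vale.Agent.P327.Full

open Filter Set PiNat
open scoped Classical

/-- The value of a functional; meaningful where it is total. -/
noncomputable def out (F : Func) (Y : Cantor) : Cantor :=
  fun n => decide (∃ k, F.f (pre Y k) n = some true)

/-- Every place gets an answer. -/
def Tot (F : Func) (Y : Cantor) : Prop := ∀ n, ∃ k, (F.f (pre Y k) n).isSome = true

theorem out_eq {F : Func} {Y X : Cantor} (h : Red F Y X) : out F Y = X := by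
  funext n
  obtain ⟨k, hk⟩ := h n
  cases hX : X n
  · refine decide_eq_false fun ⟨j, hj⟩ => ?_
    have := h.value hj
    rw [hX] at this
    exact Bool.noConfusion this
  · exact decide_eq_true ⟨k, hX ▸ hk⟩

theorem Tot.of_red {F : Func} {Y X : Cantor} (h : Red F Y X) : Tot F Y := fun n => by
  obtain ⟨k, hk⟩ := h n
  exact ⟨k, by rw [hk]; rfl⟩

theorem Tot.red {F : Func} {Y : Cantor} (h : Tot F Y) : Red F Y (out F Y) := fun n => by
  obtain ⟨k, hk⟩ := h n
  obtain ⟨b, hb⟩ := Option.isSome_iff_exists.1 hk
  refine ⟨k, hb.trans (congrArg some ?_)⟩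
  cases b
  · refine (decide_eq_false fun ⟨j, hj⟩ => ?_).symm
    have h₁ := F.mono _ _ _ _ (pre_prefix Y (le_max_left k j)) hb
    have h₂ := F.mono _ _ _ _ (pre_prefix Y (le_max_right k j)) hj
    rw [h₁] at h₂
    exact Bool.noConfusion (Option.some.inj h₂)
  · exact (decide_eq_true ⟨k, hb⟩).symm

theorem continuous_join_const (Z : Cantor) : Continuous fun x : Cantor => join x Z :=
  continuous_join.comp (continuous_id.prodMk continuous_const)

theorem continuous_join_const' (Z : Cantor) : Continuous fun x : Cantor => join Z x :=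
  continuous_join.comp (continuous_const.prodMk continuous_id)

theorem pre_eq_nhds {Y : Cantor → Cantor} (hY : Continuous Y) (x : Cantor) (k : ℕ) :
    ∀ᶠ y in nhds x, pre (Y y) k = pre (Y x) k := by
  refine Filter.mem_of_superset (hY.continuousAt.preimage_mem_nhds
    ((isClopen_cylinder (Y x) k).isOpen.mem_nhds (self_mem_cylinder _ _))) fun y hy => ?_
  exact pre_congr hy le_rfl

theorem isGδ_tot (F : Func) {Y : Cantor → Cantor} (hY : Continuous Y) :
    IsGδ {x | Tot F (Y x)} := by
  have : {x | Tot F (Y x)} = ⋂ n, {x | ∃ k, (F.f (pre (Y x) k) n).isSome = true} := by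
    ext x; simp [Tot]
  rw [this]
  refine IsGδ.iInter_of_isOpen fun n => isOpen_iff_mem_nhds.2 fun x ⟨k, hk⟩ => ?_
  exact (pre_eq_nhds hY x k).mono fun y hy => ⟨k, by rw [hy]; exact hk⟩

theorem continuousOn_out (F : Func) {Y : Cantor → Cantor} (hY : Continuous Y) :
    ContinuousOn (fun x => out F (Y x)) {x | Tot F (Y x)} := by
  refine continuousOn_pi.2 fun n x hx => ?_
  obtain ⟨k, hk⟩ := Tot.red hx n
  refine ContinuousWithinAt.congr_of_eventuallyEq continuousWithinAt_const ?_ rfl
  filter_upwards [mem_nhdsWithin_of_mem_nhds (pre_eq_nhds hY x k), self_mem_nhdsWithin] with y hy hty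
  exact ((Tot.red hty).value (k := k) (by rw [hy]; exact hk)).symm

/-! ## Open approximations -/

theorem meagre_of_dense_open {O : Set Cantor} (ho : IsOpen O) (hd : Dense O) : IsMeagre Oᶜ := by
  show Oᶜᶜ ∈ residual Cantor
  rw [compl_compl]
  exact residual_of_dense_open ho hd

theorem gdelta_open {G : Set Cantor} (hG : IsGδ G) :
    ∃ O, IsOpen O ∧ ∀ᶠ x in residual Cantor, x ∈ G ↔ x ∈ O := by
  refine ⟨interior (closure G), isOpen_interior, ?_⟩
  have h₁ : ∀ᶠ x in residual Cantor, x ∈ G ∨ x ∉ closure G := by
    refine residual_of_dense_Gδ (hG.union isClosed_closure.isOpen_compl.isGδ) fun x => ?_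
    by_cases hx : x ∈ closure G
    · exact closure_mono subset_union_left hx
    · exact subset_closure (Or.inr hx)
  have h₂ : ∀ᶠ x in residual Cantor, x ∈ interior (closure G) ∨ x ∉ closure G := by
    refine residual_of_dense_open (isOpen_interior.union isClosed_closure.isOpen_compl) fun x => ?_
    refine mem_closure_iff.2 fun N hN hx => ?_
    by_cases hsub : N ⊆ closure G
    · exact ⟨x, hx, Or.inl (interior_maximal hsub hN hx)⟩
    · obtain ⟨y, hy, hy'⟩ := not_subset.1 hsub
      exact ⟨y, hy, Or.inr hy'⟩
  filter_upwards [h₁, h₂] with x hx₁ hx₂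
  exact ⟨fun h => hx₂.resolve_right fun hn => hn (subset_closure h),
    fun h => hx₁.resolve_right fun hn => hn (interior_subset h)⟩

theorem iUnion_open {ι : Type*} [Countable ι] {G : ι → Set Cantor} (hG : ∀ i, IsGδ (G i)) :
    ∃ O P, IsOpen O ∧ IsOpen P ∧ Disjoint O P ∧
      ∀ᶠ x in residual Cantor, ((∃ i, x ∈ G i) → x ∈ O) ∧ ((¬∃ i, x ∈ G i) → x ∈ P) := by
  choose O hO hiff using fun i => gdelta_open (hG i)
  let U := ⋃ i, O i
  have hUo : IsOpen U := isOpen_iUnion hO
  refine ⟨U, (closure U)ᶜ, hUo, isClosed_closure.isOpen_compl,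
    disjoint_compl_right.mono_left subset_closure, ?_⟩
  have hfront : ∀ᶠ x in residual Cantor, x ∈ U ∨ x ∉ closure U := by
    refine residual_of_dense_open (hUo.union isClosed_closure.isOpen_compl) fun x => ?_
    by_cases hx : x ∈ closure U
    · exact closure_mono subset_union_left hx
    · exact subset_closure (Or.inr hx)
  filter_upwards [eventually_countable_forall.2 hiff, hfront] with x hx hx'
  constructor
  · rintro ⟨i, hi⟩
    exact mem_iUnion.2 ⟨i, (hx i).1 hi⟩
  · intro h
    refine hx'.resolve_left fun hU => h ?_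
    obtain ⟨i, hi⟩ := mem_iUnion.1 hU
    exact ⟨i, (hx i).2 hi⟩

/-- Countably many sets have a common bound. -/
theorem exists_bound {ι : Type*} [Countable ι] [Nonempty ι] (X : ι → Cantor) :
    ∃ Z, ∀ i, TLe (X i) Z := by
  obtain ⟨e, he⟩ := exists_surjective_nat ι
  refine ⟨fun j => X (e j.unpair.1) j.unpair.2, fun i => ?_⟩
  obtain ⟨k, rfl⟩ := he i
  have h := tle_comp (tle_refl fun j => X (e j.unpair.1) j.unpair.2)
    (p := fun n => Nat.pair k n) (Primrec₂.natPair.comp (Primrec.const k) Primrec.id)
  simpa using h

/-- Looking up the code of an initial segment of the left half in the right half. -/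
def nodeRead : Func where
  f σ q := bif decide (2 * q.unpair.2 ≤ σ.length) then
      σ[2 * Nat.pair q.unpair.1
        (enc ((List.range q.unpair.2).map fun i => σ.getD (2 * i) false)) + 1]?
    else none
  prim := by
    have ht : Primrec fun p : List Bool × ℕ => p.2.unpair.2 :=
      Primrec.snd.comp (Primrec.unpair.comp Primrec.snd)
    refine Primrec.cond ((Primrec.nat_le.comp (primrec_double.comp ht)
      (Primrec.list_length.comp Primrec.fst)).decide) ?_ (Primrec.const none)
    refine Primrec.list_getElem?.comp Primrec.fst (primrec_odd.comp (Primrec₂.natPair.comp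
      (Primrec.fst.comp (Primrec.unpair.comp Primrec.snd)) (Primrec.encode.comp
        (Primrec.list_map (Primrec.list_range.comp ht) ?_))))
    exact ((Primrec.list_getD false).comp (Primrec.fst.comp Primrec.fst)
      (primrec_double.comp Primrec.snd)).to₂
  mono σ τ q v h hv := by
    obtain ⟨r, rfl⟩ := h
    by_cases hN : 2 * q.unpair.2 ≤ σ.length
    · have e : ((List.range q.unpair.2).map fun i => (σ ++ r).getD (2 * i) false) =
          (List.range q.unpair.2).map fun i => σ.getD (2 * i) false :=
        List.map_congr_left fun i hi => by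
          have : 2 * i < σ.length := by have := List.mem_range.1 hi; omega
          simp [List.getD_eq_getElem?_getD, List.getElem?_append_left this]
      have hN' : 2 * q.unpair.2 ≤ (σ ++ r).length := by rw [List.length_append]; omega
      simp only [hN, hN', decide_true, cond_true, e] at hv ⊢
      rw [List.getElem?_append_left (List.getElem?_eq_some_iff.1 hv).1]
      exact hv
    · simp [hN] at hv

theorem tle_nodeRead (u Z : Cantor) :
    TLe (fun q => Z (Nat.pair q.unpair.1 (enc (pre u q.unpair.2)))) (join u Z) := by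
  refine tle_iff.2 ⟨nodeRead, fun q => ?_⟩
  let j := Nat.pair q.unpair.1 (enc (pre u q.unpair.2))
  refine ⟨2 * j + 2 + 2 * q.unpair.2, ?_⟩
  have e : ((List.range q.unpair.2).map fun i =>
      (pre (join u Z) (2 * j + 2 + 2 * q.unpair.2)).getD (2 * i) false) = pre u q.unpair.2 :=
    List.map_congr_left fun i hi => by
      rw [pre_getD _ (by have := List.mem_range.1 hi; omega), join_even]
  simp only [nodeRead, pre_length, Nat.le_add_left, decide_true, cond_true, e, pre_getElem?]
  rw [if_pos (by omega), join_odd]

/-- A bit decided by disjoint open sets is computed from codes of their cylinders. -/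
theorem open_codes (U P : ℕ → Set Cantor) (hU : ∀ n, IsOpen (U n)) (hP : ∀ n, IsOpen (P n))
    (hd : ∀ n, Disjoint (U n) (P n)) :
    ∃ Z, ∀ u h : Cantor, (∀ n, if h n = true then u ∈ U n else u ∈ P n) → TLe h (join u Z) := by
  classical
  let code : (ℕ → Set Cantor) → Cantor := fun S j =>
    decide (∃ x k, j.unpair.2 = enc (pre x k) ∧ cylinder x k ⊆ S j.unpair.1)
  refine ⟨join (code U) (code P), fun u h hh => ?_⟩
  have look : ∀ S, TLe (code S) (join (code U) (code P)) →
      TLe (fun q => code S (Nat.pair q.unpair.1 (enc (pre u q.unpair.2))))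
        (join u (join (code U) (code P))) := fun S hS =>
    tle_trans (tle_nodeRead u (code S))
      (tle_join (tle_join_left _ _) (tle_trans hS (tle_join_right _ _)))
  have mem : ∀ S n t, code S (Nat.pair n (enc (pre u t))) = true → u ∈ S n := by
    intro S n t hq
    simp only [code, decide_eq_true_eq, Nat.unpair_pair] at hq
    obtain ⟨x, k, he, hsub⟩ := hq
    have e : pre u t = pre x k := Encodable.encode_injective he
    have ek : t = k := by simpa using congrArg List.length e
    subst ek
    exact hsub fun i hi => by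
      have h' : (pre u t).getD i false = (pre x t).getD i false := by rw [e]
      rwa [pre_getD _ hi, pre_getD _ hi] at h'
  have hit : ∀ S n, IsOpen (S n) → u ∈ S n →
      ∃ t, code S (Nat.pair n (enc (pre u t))) = true := by
    intro S n hS hu
    obtain ⟨k, -, hk⟩ := exists_cylinder_subset hS hu 0
    exact ⟨k, by simp only [code, decide_eq_true_eq, Nat.unpair_pair]; exact ⟨u, k, rfl, hk⟩⟩
  refine tle_search (tle_bin Bool.or (look U (tle_join_left _ _)) (look P (tle_join_right _ _)))
    (look U (tle_join_left _ _)) (fun n t ht => ?_) fun n => ?_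
  · simp only [Nat.unpair_pair, Bool.or_eq_true] at ht ⊢
    by_cases hn : h n = true
    · have hu : u ∈ U n := by simpa [hn] using hh n
      rw [hn]
      exact ht.resolve_right fun hp => (hd n).le_bot ⟨hu, mem P n t hp⟩
    · have hu : u ∈ P n := by simpa [hn] using hh n
      rw [Bool.not_eq_true] at hn
      rw [hn, Bool.eq_false_iff]
      exact fun hU' => (hd n).le_bot ⟨mem U n t hU', hu⟩
  · by_cases hn : h n = true
    · have hu : u ∈ U n := by simpa [hn] using hh n
      obtain ⟨t, ht⟩ := hit U n (hU n) hu
      exact ⟨t, by simp [Nat.unpair_pair, ht]⟩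
    · have hu : u ∈ P n := by simpa [hn] using hh n
      obtain ⟨t, ht⟩ := hit P n (hP n) hu
      exact ⟨t, by simp [Nat.unpair_pair, ht]⟩

end Vale.Agent.P327.Full
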