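import Vale.Agent.P327.Iter

/-! # Full rigidity: common definitions -/

namespace Vale.Agent.P327.Full

open Filter Set PiNat

/-- An automorphism of the degrees, by representatives in both directions. -/
structure Auto where
  f : Cantor → Cantor
  g : Cantor → Cantor
  le_f : ∀ x y, TLe (f x) (f y) ↔ TLe x y
  fg : ∀ y, TLe (f (g y)) y ∧ TLe y (f (g y))

/-- The filter of comeagre subsets of `U`. -/
def Mst {Y : Type*} [TopologicalSpace Y] (U : Set Y) : Filter Y := residual Y ⊓ 𝓟 U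

/-- `A` is nonmeagre in every nonempty open part of `U`. -/
def Fat {Y : Type*} [TopologicalSpace Y] (A U : Set Y) : Prop :=
  ∀ V : Set Y, IsOpen V → V.Nonempty → V ⊆ U → ¬IsMeagre (A ∩ V)

/-- One functional computes `q` from `p` along the filter `l`. -/
def RedOn {α : Type*} (l : Filter α) (p q : α → Cantor) : Prop :=
  ∃ F : Func, ∀ᶠ a in l, Red F (p a) (q a)

/-- Countably many continuous charts representing the automorphism. -/
structure Atlas (π : Auto) where
  ι : Type
  count : Countable ι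
  Dm : ι → Set Cantor
  A : ι → Set Cantor
  F : ι → Cantor → Cantor
  gdel : ∀ i, IsGδ (Dm i)
  sub : ∀ i, A i ⊆ Dm i
  cover : ∀ x, ∃ i, x ∈ A i
  val : ∀ i, ∀ x ∈ A i, TLe (F i x) (π.f x) ∧ TLe (π.f x) (F i x)
  cont : ∀ i, ContinuousOn (F i) (Dm i)
  inv : ∀ i, ∀ x ∈ Dm i, ∀ k, ∃ m, ∀ y ∈ Dm i,
    pre (F i y) m = pre (F i x) m → y ∈ cylinder x k

attribute [instance] Atlas.count

/-- The parameters collected so far still avoid the target. -/
def Ok (π : Auto) (v P : Cantor) : Prop := ¬TLe (π.g v) (join v P)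

/-- `Q` extends the parameter context `P` and still avoids the target. -/
def Ext (π : Auto) (v P Q : Cantor) : Prop := TLe P Q ∧ Ok π v Q

/-- The zero set. -/
def zero : Cantor := fun _ => false

/-- The singleton at `n`. -/
def single (n : ℕ) : Cantor := fun j => decide (j = n)

namespace RedOn

variable {α β : Type*} {l : Filter α} {p q r : α → Cantor}

theorem mono {l' : Filter α} (h : RedOn l p q) (hl : l' ≤ l) : RedOn l' p q := by
  obtain ⟨F, hF⟩ := h
  exact ⟨F, hF.filter_mono hl⟩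

theorem congr {p' q' : α → Cantor} (h : RedOn l p q) (hp : ∀ᶠ a in l, p a = p' a)
    (hq : ∀ᶠ a in l, q a = q' a) : RedOn l p' q' := by
  obtain ⟨F, hF⟩ := h
  exact ⟨F, (hF.and (hp.and hq)).mono fun a ha => ha.2.1 ▸ ha.2.2 ▸ ha.1⟩

theorem map {m : Filter β} {φ : β → α} (h : RedOn l p q) (hφ : Tendsto φ m l) :
    RedOn m (fun b => p (φ b)) (fun b => q (φ b)) := by
  obtain ⟨F, hF⟩ := h
  exact ⟨F, hφ.eventually hF⟩

theorem trans (h : RedOn l p q) (h' : RedOn l q r) : RedOn l p r := by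
  obtain ⟨F, hF⟩ := h
  obtain ⟨G, hG⟩ := h'
  exact ⟨Func.comp G F, (hF.and hG).mono fun a ha => red_comp ha.1 ha.2⟩

theorem pair (h : RedOn l p q) (h' : RedOn l p r) : RedOn l p fun a => join (q a) (r a) := by
  obtain ⟨F, hF⟩ := h
  obtain ⟨G, hG⟩ := h'
  exact ⟨Func.pair F G, (hF.and hG).mono fun a ha => red_pair ha.1 ha.2⟩

theorem refl : RedOn l p p := by
  refine ⟨Func.read id Primrec.id (fun _ => false) (Primrec.const false), ?_⟩
  refine Eventually.of_forall fun a => ?_
  have e : (fun n => xor (p a (id n)) false) = p a := funext fun n => by simp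
  have h := red_read (hp := Primrec.id) (hw := Primrec.const false) (p a)
  rwa [e] at h

theorem left : RedOn l (fun a => join (p a) (q a)) p :=
  ⟨Func.left, Eventually.of_forall fun _ => red_left _ _⟩

theorem right : RedOn l (fun a => join (p a) (q a)) q :=
  ⟨Func.right, Eventually.of_forall fun _ => red_right _ _⟩

theorem sum : RedOn l (fun a => join (p a) (q a)) fun a => xr (p a) (q a) :=
  ⟨Func.xor, Eventually.of_forall fun _ => red_xor _ _⟩

theorem const {x y : Cantor} (h : TLe x y) : RedOn l (fun _ => y) (fun _ => x) := by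
  obtain ⟨F, hF⟩ := tle_iff.1 h
  exact ⟨F, Eventually.of_forall fun _ => hF⟩

theorem tle (h : RedOn l p q) : ∀ᶠ a in l, TLe (q a) (p a) := by
  obtain ⟨F, hF⟩ := h
  exact hF.mono fun _ ha => tle_iff.2 ⟨F, ha⟩

/-- A larger parameter may replace a smaller one. -/
theorem upgrade {P P' : Cantor} (π : Auto) (h : RedOn l (fun a => join (p a) (π.f P)) q)
    (hP : TLe P P') : RedOn l (fun a => join (p a) (π.f P')) q :=
  (RedOn.left.pair (RedOn.right.trans (RedOn.const ((π.le_f _ _).2 hP)))).trans h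

end RedOn

theorem Auto.g_le (π : Auto) (x y : Cantor) : TLe (π.g x) (π.g y) ↔ TLe x y := by
  rw [← π.le_f]
  exact ⟨fun h => tle_trans (π.fg x).2 (tle_trans h (π.fg y).1),
    fun h => tle_trans (π.fg x).1 (tle_trans h (π.fg y).2)⟩

theorem Auto.gf (π : Auto) (x : Cantor) : TLe (π.g (π.f x)) x ∧ TLe x (π.g (π.f x)) :=
  ⟨(π.le_f _ _).1 (π.fg _).1, (π.le_f _ _).1 (π.fg _).2⟩

theorem Auto.f_join_le (π : Auto) (a b : Cantor) :
    TLe (π.f (join a b)) (join (π.f a) (π.f b)) := by
  refine tle_trans ((π.le_f _ _).2 (?_ : TLe (join a b) (π.g (join (π.f a) (π.f b))))) (π.fg _).1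
  refine tle_join ((π.le_f _ _).1 ?_) ((π.le_f _ _).1 ?_)
  · exact tle_trans (tle_join_left _ _) (π.fg _).2
  · exact tle_trans (tle_join_right _ _) (π.fg _).2

theorem Auto.le_f_join (π : Auto) (a b : Cantor) :
    TLe (join (π.f a) (π.f b)) (π.f (join a b)) :=
  tle_join ((π.le_f _ _).2 (tle_join_left _ _)) ((π.le_f _ _).2 (tle_join_right _ _))

/-- The inverse automorphism. -/
def Auto.inv (π : Auto) : Auto where
  f := π.g
  g := π.f
  le_f := π.g_le
  fg := π.gf

variable {π : Auto}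

/-- A functional moves chart values at `y` to chart values at `y + e`, using the parameters. -/
def Move (𝒜 : Atlas π) (P : Cantor) (l i : 𝒜.ι) (U : Set Cantor) (e : Cantor) : Prop :=
  RedOn (Mst U) (fun y => join (𝒜.F l y) (π.f P)) (fun y => 𝒜.F i (xr y e))

/-- A machine reading the positions `s k` up to a constant. -/
def Mach (𝒜 : Atlas π) (P : Cantor) (s : ℕ → ℕ) (l : 𝒜.ι) (U : Set Cantor) (C : Cantor) : Prop :=
  RedOn (Mst U) (fun y => join (𝒜.F l y) (π.f P)) (fun y => fun k => xor (y (s k)) (C k))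

/-- A machine reading the positions `s k` exactly. -/
def Read (𝒜 : Atlas π) (P : Cantor) (s : ℕ → ℕ) (l : 𝒜.ι) (U : Set Cantor) : Prop :=
  RedOn (Mst U) (fun y => join (𝒜.F l y) (π.f P)) (fun y => fun k => y (s k))

/-- A cylinder with generic translations and exact translations at the positions `s k`. -/
structure Base (𝒜 : Atlas π) (v : Cantor) (i : 𝒜.ι) (c : Cantor) (L : ℕ) (s : ℕ → ℕ) : Prop where
  fat : Fat (𝒜.A i) (cylinder c L)
  smono : StrictMono s
  sprim : Primrec s
  sge : ∀ k, L ≤ s k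
  gen : ∀ P, Ok π v P → ∀ (N : ℕ) (pat : Cantor), (∀ j < L, pat j = false) →
    ∃ P' d, Ext π v P P' ∧ (∀ j < L, d j = false) ∧ (∀ j < N, d j = pat j) ∧
      Move 𝒜 P' i i (cylinder c L) d
  exact' : ∀ P, Ok π v P → ∀ k, ∃ P', Ext π v P P' ∧ Move 𝒜 P' i i (cylinder c L) (single (s k))

/-- Machines with an unknown constant exist below every chart cylinder. -/
def HasMach (𝒜 : Atlas π) (v : Cantor) (s : ℕ → ℕ) : Prop :=
  ∀ (l : 𝒜.ι) (U : Set Cantor), IsOpen U → U.Nonempty → Fat (𝒜.A l) U → ∀ P, Ok π v P →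
    ∃ P' V C, Ext π v P P' ∧ IsOpen V ∧ V.Nonempty ∧ V ⊆ U ∧ Mach 𝒜 P' s l V C

/-- Exact machines exist below every chart cylinder. -/
def HasRead (𝒜 : Atlas π) (v : Cantor) (s : ℕ → ℕ) : Prop :=
  ∀ (l : 𝒜.ι) (U : Set Cantor), IsOpen U → U.Nonempty → Fat (𝒜.A l) U → ∀ P, Ok π v P →
    ∃ P' V, Ext π v P P' ∧ IsOpen V ∧ V.Nonempty ∧ V ⊆ U ∧ Read 𝒜 P' s l V

end Vale.Agent.P327.Full
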