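import Vale.Agent.P327.Func

/-! # The Turing degrees of sets -/

namespace Vale.Agent.P327.Full

/-- Turing equivalence of sets. -/
def turingSetoid : Setoid Cantor where
  r X Y := TLe X Y ∧ TLe Y X
  iseqv := ⟨fun X => ⟨tle_refl X, tle_refl X⟩, fun h => ⟨h.2, h.1⟩,
    fun h h' => ⟨tle_trans h.1 h'.1, tle_trans h'.2 h.2⟩⟩

/-- The Turing degrees: classes of sets of natural numbers under Turing equivalence. -/
def Degree : Type := Quotient turingSetoid

/-- The order of the Turing degrees. -/
def DLe : Degree → Degree → Prop :=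
  Quotient.lift₂ TLe fun _ _ _ _ h h' => propext
    ⟨fun t => tle_trans h.2 (tle_trans t h'.1), fun t => tle_trans h.1 (tle_trans t h'.2)⟩

theorem dle_mk (X Y : Cantor) :
    DLe (Quotient.mk turingSetoid X) (Quotient.mk turingSetoid Y) ↔ TLe X Y := Iff.rfl

/-- Representative rigidity gives rigidity of the degree structure. -/
theorem degree_rigid_of
    (h : ∀ f : Cantor → Cantor, (∀ X Y, TLe (f X) (f Y) ↔ TLe X Y) →
      (∀ Y, ∃ X, TLe (f X) Y ∧ TLe Y (f X)) → ∀ A, TLe (f A) A ∧ TLe A (f A))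
    (e : Degree ≃ Degree) (he : ∀ a b, DLe (e a) (e b) ↔ DLe a b) : e = Equiv.refl Degree := by
  have rep : ∀ a : Degree, ∃ X, Quotient.mk turingSetoid X = a := fun a =>
    Quotient.exists_rep a
  choose r hr using rep
  let mk : Cantor → Degree := Quotient.mk turingSetoid
  let f : Cantor → Cantor := fun X => r (e (mk X))
  have hfe : ∀ X, mk (f X) = e (mk X) := fun X => hr _
  have hf : ∀ X Y, TLe (f X) (f Y) ↔ TLe X Y := fun X Y => by
    show DLe (mk (f X)) (mk (f Y)) ↔ DLe (mk X) (mk Y)
    rw [hfe X, hfe Y]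
    exact he _ _
  have hs : ∀ Y, ∃ X, TLe (f X) Y ∧ TLe Y (f X) := fun Y => by
    refine ⟨r (e.symm (mk Y)), ?_⟩
    have h1 : mk (f (r (e.symm (mk Y)))) = mk Y :=
      (hfe _).trans ((congrArg e (hr (e.symm (mk Y)))).trans (e.apply_symm_apply _))
    exact Quotient.exact h1
  refine Equiv.ext fun a => ?_
  induction a using Quotient.inductionOn with
  | h X =>
    rw [← hr (e (Quotient.mk turingSetoid X))]
    exact Quotient.sound (h f hf hs X)

end Vale.Agent.P327.Full
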