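import Vale.Agent.P327.Full.Law
import Vale.Agent.P327.Full.Node

/-! Full rigidity, block EXACT: exact translations along a branch of nodes. -/

namespace Vale.Agent.P327.Full

open Filter Set PiNat

theorem cylinder_level_le {x y : Cantor} {n m : ℕ} (h : cylinder x n ⊆ cylinder y m) : m ≤ n := by
  by_contra hlt
  have hn : n < m := not_le.1 hlt
  have h1 : x n = y n := h (self_mem_cylinder _ _) n hn
  let z : Cantor := Function.update x n (!x n)
  have h2 : z n = y n := h (fun i hi => Function.update_of_ne (Nat.ne_of_lt hi) _ _) n hn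
  simp [z, ← h1] at h2

theorem cylinder_shrink {x : Cantor} {L M : ℕ} (h : L ≤ M) : cylinder x M ⊆ cylinder x L :=
  cylinder_anti x h

/-- Sections of a uniform reduction are uniform. -/
theorem RedOn.sections {Y Z : Type*} [TopologicalSpace Y] [TopologicalSpace Z]
    [SecondCountableTopology Z] {U : Set Y} {V : Set Z} {p q : Y × Z → Cantor}
    (h : RedOn (Mst (U ×ˢ V)) p q) :
    ∀ᶠ a in Mst U, RedOn (Mst V) (fun b => p (a, b)) (fun b => q (a, b)) := by
  obtain ⟨F, hF⟩ := h
  exact (mst_sections hF).mono fun a ha => ⟨F, ha⟩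

/-- The exact translations, from generic translations and links. -/
theorem exact_of (htrans : TransPin) (hlink : LinkPin) : ExactPin := by
  intro π 𝒜 v _
  obtain ⟨i, U, hUo, hUne, -, hU⟩ := 𝒜.exists_fat_chart isOpen_univ univ_nonempty
  obtain ⟨c₀, m, hC₀U, hgen⟩ := htrans π 𝒜 v i U hUo hUne hU
  let C₀ := cylinder c₀ m
  have hC₀o : IsOpen C₀ := (isClopen_cylinder c₀ m).isOpen
  have hA₀ : Fat (𝒜.A i) C₀ := hU.mono subset_rfl hC₀U
  let Dm := 𝒜.Dm i
  let F := 𝒜.F i
  let D : Set (Cantor × Cantor × Cantor) := Dm ×ˢ Dm ×ˢ Dm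
  let T : Set (Cantor × Cantor × Cantor) := 𝒜.A i ×ˢ 𝒜.A i ×ˢ 𝒜.A i
  let p : Cantor × Cantor × Cantor → Cantor :=
    fun t => join (F t.1) (join (F t.2.1) (F t.2.2))
  have hTD : T ⊆ D := prod_mono (𝒜.sub i) (prod_mono (𝒜.sub i) (𝒜.sub i))
  have hD : IsGδ D :=
    (isGδ_preimage continuous_fst (𝒜.gdel i)).inter (isGδ_preimage continuous_snd
      ((isGδ_preimage continuous_fst (𝒜.gdel i)).inter
        (isGδ_preimage continuous_snd (𝒜.gdel i))))
  have hF₁ : ContinuousOn (fun t : Cantor × Cantor × Cantor => F t.1) D :=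
    (𝒜.cont i).comp continuousOn_fst fun t ht => ht.1
  have hF₂ : ContinuousOn (fun t : Cantor × Cantor × Cantor => F t.2.1) D :=
    (𝒜.cont i).comp (continuous_fst.comp continuous_snd).continuousOn fun t ht => ht.2.1
  have hF₃ : ContinuousOn (fun t : Cantor × Cantor × Cantor => F t.2.2) D :=
    (𝒜.cont i).comp (continuous_snd.comp continuous_snd).continuousOn fun t ht => ht.2.2
  have hp : ContinuousOn p D :=
    continuous_join.comp_continuousOn (hF₁.prodMk (continuous_join.comp_continuousOn (hF₂.prodMk hF₃)))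
  -- the law of the operation and its inverse in the last entry
  obtain ⟨l, T', W, hWo, hWne, hWsub, hT'sub, hT', hmap, -, -, hH⟩ :=
    law π 𝒜 _ T D (C₀ ×ˢ C₀ ×ˢ C₀) p nodeOp (hC₀o.prod (hC₀o.prod hC₀o))
      ((cylinder_nonempty _ _).prod ((cylinder_nonempty _ _).prod (cylinder_nonempty _ _)))
      (hA₀.prod (hA₀.prod hA₀)) hTD hD hp continuous_nodeOp isOpenMap_nodeOp fun t ht => by
        refine tle_trans ((π.le_f _ _).2 (tle_nodeOp t.1 t.2.1 t.2.2))
          (tle_trans (π.f_join_le _ _) (tle_join (tle_trans (𝒜.val i _ ht.1).2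
            (tle_join_left _ _)) (tle_trans (π.f_join_le _ _) (tle_join ?_ ?_))))
        · exact tle_trans (𝒜.val i _ ht.2.1).2
            (tle_trans (tle_join_left _ _) (tle_join_right _ _))
        · exact tle_trans (𝒜.val i _ ht.2.2).2
            (tle_trans (tle_join_right _ _) (tle_join_right _ _))
  let p' : Cantor × Cantor × Cantor → Cantor :=
    fun t => join (𝒜.F l (nodeOp t)) (join (F t.1) (F t.2.1))
  let D' := D ∩ nodeOp ⁻¹' 𝒜.Dm l
  have hp' : ContinuousOn p' D' :=
    continuous_join.comp_continuousOn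
      (((𝒜.cont l).comp continuous_nodeOp.continuousOn fun t ht => ht.2).prodMk
        (continuous_join.comp_continuousOn
          ((hF₁.mono inter_subset_left).prodMk (hF₂.mono inter_subset_left))))
  obtain ⟨W', hW'o, hW'ne, hW'sub, hH'⟩ := uniform _ T' D' W p' (fun t => F t.2.2) hWo hWne hT'
    (fun t ht => ⟨hTD (hT'sub ht), 𝒜.sub l (hmap ht)⟩)
    (hD.inter (isGδ_preimage continuous_nodeOp (𝒜.gdel l))) hp'
    (hF₃.mono inter_subset_left) fun t ht => by
      have htT := hT'sub ht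
      refine tle_trans (tle_trans (𝒜.val i _ htT.2.2).1
        ((π.le_f _ _).2 (tle_nodeOp_back t.1 t.2.1 t.2.2))) ?_
      refine tle_trans (π.f_join_le _ _) (tle_join (tle_trans (𝒜.val l _ (hmap ht)).2
        (tle_join_left _ _)) (tle_trans (π.f_join_le _ _) (tle_join ?_ ?_)))
      · exact tle_trans (𝒜.val i _ htT.1).2 (tle_trans (tle_join_left _ _) (tle_join_right _ _))
      · exact tle_trans (𝒜.val i _ htT.2.1).2
          (tle_trans (tle_join_right _ _) (tle_join_right _ _))
  -- a box of one level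
  obtain ⟨⟨ca, cc, cw⟩, hmem⟩ := hW'ne
  obtain ⟨Oa, O', hOao, hO'o, hca, hcw, hsub₁⟩ := isOpen_prod_iff.1 hW'o ca (cc, cw) hmem
  obtain ⟨Oc, Ow, hOco, hOwo, hcc, hcw', hsub₂⟩ := isOpen_prod_iff.1 hO'o cc cw hcw
  obtain ⟨La, -, hLa⟩ := exists_cylinder_subset hOao hca m
  obtain ⟨Lc, hLac, hLc⟩ := exists_cylinder_subset hOco hcc La
  obtain ⟨L, hLcw, hLw⟩ := exists_cylinder_subset hOwo hcw' Lc
  let Ba := cylinder ca L
  let Bc := cylinder cc L
  let Bw := cylinder cw L
  have hboxW' : Ba ×ˢ Bc ×ˢ Bw ⊆ W' := fun t ht =>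
    hsub₁ ⟨hLa (cylinder_anti ca (le_trans hLac hLcw) ht.1),
      hsub₂ ⟨hLc (cylinder_anti cc hLcw ht.2.1), hLw ht.2.2⟩⟩
  have hboxC : Ba ×ˢ Bc ×ˢ Bw ⊆ C₀ ×ˢ C₀ ×ˢ C₀ := hboxW'.trans (hW'sub.trans hWsub)
  have hBaC : Ba ⊆ C₀ := fun a ha =>
    (hboxC (show (a, cc, cw) ∈ _ from ⟨ha, self_mem_cylinder _ _, self_mem_cylinder _ _⟩)).1
  have hBcC : Bc ⊆ C₀ := fun c hc =>
    (hboxC (show (ca, c, cw) ∈ _ from ⟨self_mem_cylinder _ _, hc, self_mem_cylinder _ _⟩)).2.1
  let y₀ := nodeOp (ca, cc, cw)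
  have hAl : Fat (𝒜.A l) (cylinder y₀ L) := by
    rw [← nodeOp_image]
    exact fat_image continuous_nodeOp isOpenMap_nodeOp
      ((isClopen_cylinder _ _).isOpen.prod
        ((isClopen_cylinder _ _).isOpen.prod (isClopen_cylinder _ _).isOpen))
      (hT'.mono subset_rfl (hboxW'.trans hW'sub)) hmap
  obtain ⟨y₁, c₁, M, hy₁, hc₁, hlink'⟩ := hlink π 𝒜 v l i (cylinder y₀ L) C₀
    (isClopen_cylinder _ _).isOpen (cylinder_nonempty _ _) hAl hC₀o (cylinder_nonempty _ _) hA₀
  have hLM : L ≤ M := cylinder_level_le hy₁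
  have hmM : m ≤ M := cylinder_level_le hc₁
  have hmL : m ≤ L := cylinder_level_le hBaC
  -- transport of an exact translation between cylinders of level `M`
  have conj : ∀ P d, Ok π v P → (∀ j < M, d j = false) → Move 𝒜 P i i (cylinder c₁ M) d →
      ∀ a ∈ C₀, ∃ P', Ext π v P P' ∧ Move 𝒜 P' i i (cylinder a M) d := by
    intro P d hP hd hmove a ha
    let pat : Cantor := fun j => if j < M then xor (a j) (c₁ j) else false
    obtain ⟨P', δ, hE, -, hδ, hmv⟩ := hgen P hP M pat fun j hj => by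
      have h₁ : a j = c₀ j := ha j hj
      have h₂ : c₁ j = c₀ j := hc₁ (self_mem_cylinder _ _) j hj
      simp [pat, lt_of_lt_of_le hj hmM, h₁, h₂]
    have hδ' : ∀ j < M, δ j = xor (a j) (c₁ j) := fun j hj => by simp [hδ j hj, pat, hj]
    have hsub : cylinder a M ⊆ C₀ := fun b hb j hj =>
      (hb j (lt_of_lt_of_le hj hmM)).trans (ha j hj)
    have hto : MapsTo (fun b => xr b δ) (cylinder a M) (cylinder c₁ M) := mapsTo_xr hδ'
    have hto' : MapsTo (fun b => xr b (xr δ d)) (cylinder a M) C₀ := fun b hb => by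
      have h : xr (xr b δ) d ∈ cylinder c₁ M := mapsTo_xr_low hd (hto hb)
      rw [xr_assoc] at h
      exact hc₁ h
    refine ⟨P', hE, ?_⟩
    have h := ((hmv.mono hsub).comp (hmove.upgrade hE.1) hto).comp hmv hto'
    rwa [show xr (xr δ d) δ = d from by
      rw [xr_comm δ d, xr_assoc]
      funext j
      simp [xr]] at h
  -- one multiplication by the nodes along a fresh point
  have round : ∀ P d, Ok π v P → (∀ j < M, d j = false) → Move 𝒜 P i i (cylinder ca M) d →
      ∀ (x : Cantor) (J : ℕ), cylinder x J ⊆ Bc → ∃ P' c, Ext π v P P' ∧ c ∈ cylinder x J ∧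
        Move 𝒜 P' i i (cylinder c₁ M) (mask c d) := by
    intro P d hP hd hmove x J hx
    have hKB : cylinder ca M ⊆ Ba := cylinder_anti ca hLM
    have hsecH := RedOn.sections (U := Ba) (V := Bc ×ˢ Bw) (hH.mono (mst_mono (hboxW'.trans hW'sub)))
    have hsecH' := RedOn.sections (U := Ba) (V := Bc ×ˢ Bw) (hH'.mono (mst_mono hboxW'))
    have hKd : MapsTo (fun a => xr a d) (cylinder ca M) Ba :=
      fun a ha => hKB (mapsTo_xr_low hd ha)
    obtain ⟨a, haA, ⟨hval, hsH', hsH⟩, hEa⟩ := Ok.pick avoid hP hA₀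
      (isClopen_cylinder ca M).isOpen (cylinder_nonempty _ _) (hKB.trans hBaC)
      ((RedOn.tle hmove).and ((hsecH'.filter_mono (mst_mono hKB)).and
        ((tendsto_xr hKd).eventually hsecH)))
    obtain ⟨c, hcA, ⟨hscH', hscH⟩, hEc⟩ := Ok.pick avoid hEa.2 hA₀
      (isClopen_cylinder x J).isOpen (cylinder_nonempty _ _) (hx.trans hBcC)
      (((RedOn.sections hsH').filter_mono (mst_mono hx)).and
        ((RedOn.sections hsH).filter_mono (mst_mono hx)))
    let Q := join (join P a) c
    obtain ⟨R, e, hER, he, hli, hil⟩ := hlink' Q hEc.2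
    have laQ : TLe a R := tle_trans (tle_trans (tle_join_right P a) (tle_join_left _ c)) hER.1
    have lcQ : TLe c R := tle_trans (tle_join_right (join P a) c) hER.1
    have hPR : TLe P R := tle_trans (tle_trans (tle_join_left P a) (tle_join_left _ c)) hER.1
    have ra : TLe (F a) (π.f R) := 𝒜.val_le haA.1 laQ
    have rc : TLe (F c) (π.f R) := 𝒜.val_le hcA.1 lcQ
    have rad : TLe (F (xr a d)) (π.f R) :=
      tle_trans hval (tle_join ra ((π.le_f _ _).2 hPR))
    have hcB : c ∈ Bc := hx hcA.2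
    have haB : a ∈ Ba := hKB haA.2
    let S := cylinder y₀ L
    have hm₁ : MapsTo (fun y => xr y (mask c a)) S Bw := fun y hy j hj => by
      have h : y j = y₀ j := hy j hj
      simp [xr, h, y₀, nodeOp, mask_congr hcB haB hj]
    have m₁ : Move 𝒜 R l i S (mask c a) := by
      refine (RedOn.pair RedOn.left (RedOn.param (tle_join ra rc))).trans
        ((hscH'.map (tendsto_xr hm₁)).congr (Eventually.of_forall fun y => ?_)
          (Eventually.of_forall fun _ => rfl))
      show join (𝒜.F l (xr (xr y (mask c a)) (mask c a))) (join (F a) (F c)) = _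
      rw [xr_cancel_right]
    have m₂ : Move 𝒜 R i l Bw (mask c (xr a d)) :=
      ((RedOn.param rad).pair ((RedOn.param rc).pair RedOn.left)).trans
        (hscH.congr (Eventually.of_forall fun _ => rfl) (Eventually.of_forall fun _ => rfl))
    have m₃ : Move 𝒜 R l l S (mask c d) := by
      have h := m₁.comp m₂ hm₁
      rwa [show xr (mask c a) (mask c (xr a d)) = mask c d from by
        funext j
        simp only [xr, mask]
        cases along c j <;> cases a j <;> cases d j <;> rfl] at h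
    have hlow : ∀ j < M, mask c d j = false := mask_low hd
    have hto : MapsTo (fun b => xr b e) (cylinder c₁ M) (cylinder y₁ M) :=
      mapsTo_xr fun j hj => (he j hj).trans (Bool.xor_comm _ _)
    have hto' : MapsTo (fun b => xr b (xr e (mask c d))) (cylinder c₁ M) (cylinder y₁ M) :=
      fun b hb => by
        have h : xr (xr b e) (mask c d) ∈ cylinder y₁ M := mapsTo_xr_low hlow (hto hb)
        rwa [xr_assoc] at h
    refine ⟨R, c, (hEa.trans hEc).trans hER, hcA.2, ?_⟩
    have h := (hil.comp (m₃.mono hy₁) hto).comp hli hto'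
    rwa [show xr (xr e (mask c d)) e = mask c d from by
      rw [xr_comm e, xr_assoc]
      funext j
      simp [xr]] at h
  refine ⟨i, c₁, M, branchPos cc M, hA₀.mono subset_rfl hc₁, strictMono_branchPos cc M,
    primrec_branchPos cc M, le_branchPos cc M, fun P hP N pat hpat => ?_, fun P hP k => ?_⟩
  · obtain ⟨P', d, hE, -, hd, hmv⟩ := hgen P hP (max N M) pat
      fun j hj => hpat j (lt_of_lt_of_le hj hmM)
    exact ⟨P', d, hE, fun j hj => (hd j (lt_of_lt_of_le hj (le_max_right _ _))).trans (hpat j hj),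
      fun j hj => hd j (lt_of_lt_of_le hj (le_max_left _ _)), hmv.mono hc₁⟩
  · let x := branch0 cc M
    let J := M + k
    let r := enc (pre x J)
    have hr : r = branchPos cc M k := rfl
    have hMr : M ≤ r := le_branchPos cc M k
    have hsing : ∀ j < M, single r j = false := fun j hj =>
      decide_eq_false (Nat.ne_of_lt (lt_of_lt_of_le hj hMr))
    obtain ⟨P₁, d, hE₁, -, hd, hmv⟩ := hgen P hP (r + 1) (single r)
      fun j hj => hsing j (lt_of_lt_of_le hj hmM)
    have hdlow : ∀ j < M, d j = false := fun j hj => by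
      rw [hd j (by omega)]
      exact hsing j hj
    have hson : ∀ b, cylinder (son x J b) (J + 1) ⊆ Bc := fun b c hc j hj => by
      have hjJ : j < J := lt_of_lt_of_le hj (le_trans hLM (Nat.le_add_right _ _))
      have hjM : j < M := lt_of_lt_of_le hj hLM
      rw [hc j (Nat.lt_succ_of_lt hjJ)]
      simp [son, hjJ, x, branch0, hjM]
    obtain ⟨P₂, g₀, hE₂, hg₀, hm₀⟩ := round P₁ d hE₁.2 hdlow
      (hmv.mono ((cylinder_anti ca hLM).trans hBaC)) _ _ (hson false)
    obtain ⟨P₃, hE₃, hm₀'⟩ := conj P₂ _ hE₂.2 (mask_low hdlow) hm₀ ca (hBaC (self_mem_cylinder _ _))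
    obtain ⟨P₄, g₁, hE₄, hg₁, hm₁⟩ := round P₃ _ hE₃.2 (mask_low hdlow) hm₀' _ _ (hson true)
    refine ⟨P₄, ((hE₁.trans hE₂).trans hE₃).trans hE₄, ?_⟩
    rw [← hr, show single r = mask g₁ (mask g₀ d) from
      (mask_mask_single hg₀ hg₁ fun j hj => hd j (Nat.lt_succ_of_le hj)).symm]
    exact hm₁

end Vale.Agent.P327.Full
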