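import Vale.Agent.P327.Full.Tools
import Vale.Agent.P327.Full.RemoveOps

/-! Full rigidity, block FINISH: exact machines everywhere refute the avoiding context. -/

namespace Vale.Agent.P327.Full

open Filter Set PiNat

theorem finish (havoid : AvoidPin) : FinishPin := by
  intro π 𝒜 v s hs hsp hread hok
  let v' : Cantor := fun n => v (posIdx s n)
  have hv' : TLe v' v := tle_spread hsp v
  let T : 𝒜.ι × 𝒜.ι → Set Cantor := fun p => {g | g ∈ 𝒜.A p.1 ∧ xr g v' ∈ 𝒜.A p.2}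
  obtain ⟨⟨i, l⟩, V, hVo, hVne, -, hV⟩ := exists_fat (T := T) (S := univ) isOpen_univ
    (by rw [univ_inter]; exact not_meagre_open isOpen_univ univ_nonempty)
    fun a _ => by
      obtain ⟨i, hi⟩ := 𝒜.cover a
      obtain ⟨l, hl⟩ := 𝒜.cover (xr a v')
      exact ⟨(i, l), hi, hl⟩
  obtain ⟨P₁, V₁, hE₁, hV₁o, hV₁ne, hV₁, hR₁⟩ :=
    hread i V hVo hVne (hV.mono (fun g hg => hg.1.1) subset_rfl) zero hok
  have hA : Fat (𝒜.A l) ((fun g => xr g v') '' V₁) :=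
    fat_image (continuous_xr_right v') (isOpenMap_xr_right v') hV₁o (hV.mono subset_rfl hV₁)
      fun g hg => hg.1.2
  obtain ⟨P₂, V₂, hE₂, hV₂o, hV₂ne, hV₂, hR₂⟩ :=
    hread l _ (isOpenMap_xr_right v' _ hV₁o) (hV₁ne.image _) hA P₁ hE₁.2
  let V₃ := V₁ ∩ (fun g => xr g v') ⁻¹' V₂
  have hV₃o : IsOpen V₃ := hV₁o.inter (hV₂o.preimage (continuous_xr_right v'))
  have hV₃ne : V₃.Nonempty := by
    obtain ⟨z, hz⟩ := hV₂ne
    obtain ⟨g, hg, rfl⟩ := hV₂ hz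
    exact ⟨g, hg, hz⟩
  have e₁ := (RedOn.tle ((hR₁.upgrade hE₂.1).mono inter_subset_left) :
    ∀ᶠ g in Mst V₃, TLe (fun k => g (s k)) (join (𝒜.F i g) (π.f P₂)))
  have e₂ := (tendsto_xr (e := v') (U := V₃) (V := V₂) fun g hg => hg.2).eventually
    (RedOn.tle hR₂)
  obtain ⟨g, hg, ⟨h₁, h₂⟩, hgE⟩ := Ok.pick havoid hE₂.2 hV hV₃o hV₃ne
    (fun g hg => hV₁ hg.1) (e₁.and e₂)
  let Q : Cantor := join v (join P₂ g)
  have hgQ : TLe g Q := tle_trans (tle_join_right _ _) (tle_join_right _ _)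
  have hPQ : TLe (π.f P₂) (π.f Q) :=
    (π.le_f _ _).2 (tle_trans (tle_join_left _ _) (tle_join_right _ _))
  have hg'Q : TLe (xr g v') Q :=
    tle_trans (tle_xr g v') (tle_join hgQ (tle_trans hv' (tle_join_left _ _)))
  have ha : TLe (fun k => g (s k)) (π.f Q) :=
    tle_trans h₁ (tle_join (𝒜.val_le hg.1.1.1 hgQ) hPQ)
  have hb : TLe (fun k => xr g v' (s k)) (π.f Q) :=
    tle_trans h₂ (tle_join (𝒜.val_le hg.1.1.2 hg'Q) hPQ)
  have hv : TLe v (π.f Q) := by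
    have h := tle_trans (tle_xr _ _) (tle_join ha hb)
    have e : xr (fun k => g (s k)) (fun k => xr g v' (s k)) = v := by
      funext k
      simp [xr, v', posIdx_apply hs]
    rwa [e] at h
  exact hgE.2 (tle_trans ((π.g_le _ _).2 hv) (π.gf Q).1)

end Vale.Agent.P327.Full
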