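import Vale.Agent.P327.Full.Tools

/-! # Full rigidity: avoidance, uniformisation and the law lemma -/

namespace Vale.Agent.P327.Full

open Filter Set PiNat TopologicalSpace

/-- A set not below `v` is not below `v` joined with almost any point. -/
theorem avoid : AvoidPin := by
  intro c v hc
  have hF : ∀ F : Func, ∀ᶠ a in residual Cantor, ¬Red F (join v a) c := by
    intro F
    have hd : Dense (closure {b | Red F (join v b) c})ᶜ := by
      refine interior_eq_empty_iff_dense_compl.1 (eq_empty_of_forall_notMem fun z hz => hc ?_)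
      obtain ⟨m, -, hm⟩ := exists_cylinder_subset isOpen_interior hz 0
      exact le_of_dense_red (hm.trans interior_subset)
    exact Filter.mem_of_superset (residual_of_dense_open isClosed_closure.isOpen_compl hd)
      fun z hz h => hz (subset_closure h)
  refine (eventually_countable_forall.2 hF).mono fun a ha hle => ?_
  obtain ⟨F, hF'⟩ := tle_iff.1 hle
  exact ha F hF'

theorem continuousOn_bits {Y : Type*} [TopologicalSpace Y] {D : Set Y} {p q : Y → Cantor}
    (hp : ContinuousOn p D) (hq : ContinuousOn q D) (k n : ℕ) (F : Func) :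
    ContinuousOn (fun a => decide (F.f (pre (p a) k) n = some (q a n))) D := by
  let G : (Fin k → Bool) × Bool → Bool := fun z =>
    decide (F.f ((List.range k).map fun i => if h : i < k then z.1 ⟨i, h⟩ else false) n = some z.2)
  have e : (fun a => decide (F.f (pre (p a) k) n = some (q a n))) =
      fun a => G (fun i : Fin k => p a i, q a n) := by
    funext a
    have ep : pre (p a) k =
        (List.range k).map fun i => if h : i < k then (fun i : Fin k => p a i) ⟨i, h⟩ else false :=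
      List.map_congr_left fun i hi => by simp [List.mem_range.1 hi]
    simp only [G, ep]
  rw [e]
  exact (continuous_of_discreteTopology (f := G)).comp_continuousOn
    ((continuousOn_pi.2 fun i : Fin k => (continuous_bit (i : ℕ)).comp_continuousOn hp).prodMk
      ((continuous_bit n).comp_continuousOn hq))

/-- Where one functional succeeds on continuous data is a `Gδ`. -/
theorem isGδ_red_on {Y : Type*} [TopologicalSpace Y] {D : Set Y} {p q : Y → Cantor} (F : Func)
    (hD : IsGδ D) (hp : ContinuousOn p D) (hq : ContinuousOn q D) :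
    IsGδ {a | a ∈ D ∧ Red F (p a) (q a)} := by
  have hopen : ∀ n k, ∃ O : Set Y, IsOpen O ∧
      (fun a => decide (F.f (pre (p a) k) n = some (q a n))) ⁻¹' {true} ∩ D = O ∩ D :=
    fun n k => continuousOn_iff'.1 (continuousOn_bits hp hq k n F) _ (isOpen_discrete _)
  choose O hO hOD using hopen
  have key : {a | a ∈ D ∧ Red F (p a) (q a)} = D ∩ ⋂ n, ⋃ k, O n k := by
    ext a
    simp only [mem_setOf_eq, mem_inter_iff, mem_iInter, mem_iUnion, Red]
    refine and_congr_right fun haD => forall_congr' fun n => exists_congr fun k => ?_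
    have := Set.ext_iff.1 (hOD n k) a
    simpa [haD] using this
  rw [key]
  exact hD.inter (IsGδ.iInter_of_isOpen fun n => isOpen_iUnion fun k => hO n k)

/-- A pointwise reduction on a fat set is uniform on an open part. -/
theorem uniform : UniformPin := by
  intro Y _ _ _ T D U p q hUo hUne hT hTD hD hp hq hle
  obtain ⟨F, V, hVo, hVne, hVU, hV⟩ :=
    exists_fat (T := fun F : Func => {a | a ∈ D ∧ Red F (p a) (q a)}) hUo
      (hT U hUo hUne subset_rfl) fun a ha => by
        obtain ⟨F, hF⟩ := tle_iff.1 (hle a ha.1)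
        exact ⟨F, hTD ha.1, hF⟩
  exact ⟨V, hVo, hVne, hVU, F,
    (mst_of_fat hV hVo inter_subset_left (isGδ_red_on F hD hp hq)).mono fun a ha => ha.2⟩

theorem isGδ_preimage {Y Z : Type*} [TopologicalSpace Y] [TopologicalSpace Z] {h : Y → Z}
    (hc : Continuous h) {S : Set Z} (hS : IsGδ S) : IsGδ (h ⁻¹' S) := by
  obtain ⟨T, hTo, hTc, rfl⟩ := hS
  rw [preimage_sInter]
  exact IsGδ.biInter_of_isOpen hTc fun t ht => (hTo t ht).preimage hc

/-- The chart of an output, with its functional. -/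
theorem law : LawPin := by
  intro π 𝒜 Y _ _ _ T D U p op hUo hUne hT hTD hD hp hc ho hle
  obtain ⟨l, U', hU'o, hU'ne, hU'U, hT'⟩ :=
    exists_fat (T := fun l => op ⁻¹' 𝒜.A l) hUo (hT U hUo hUne subset_rfl)
      fun a _ => 𝒜.cover (op a)
  have hsub : op ⁻¹' 𝒜.A l ∩ T ⊆ D ∩ op ⁻¹' 𝒜.Dm l :=
    fun a ha => ⟨hTD ha.2, 𝒜.sub l ha.1⟩
  have hD' : IsGδ (D ∩ op ⁻¹' 𝒜.Dm l) := hD.inter (isGδ_preimage hc (𝒜.gdel l))
  obtain ⟨V, hVo, hVne, hVU', hred⟩ := uniform Y (op ⁻¹' 𝒜.A l ∩ T) (D ∩ op ⁻¹' 𝒜.Dm l) U' p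
    (fun a => 𝒜.F l (op a)) hU'o hU'ne hT' hsub hD' (hp.mono inter_subset_left)
    ((𝒜.cont l).comp (hc.continuousOn) fun a ha => ha.2)
    fun a ha => tle_trans (𝒜.val l _ ha.1).1 (hle a ha.2)
  have hV : Fat (op ⁻¹' 𝒜.A l ∩ T) V := hT'.mono subset_rfl hVU'
  exact ⟨l, _, V, hVo, hVne, hVU'.trans hU'U, inter_subset_right, hV, fun a ha => ha.1,
    fat_image hc ho hVo hV fun a ha => ha.1,
    (mst_of_fat hV hVo hsub hD').mono fun a ha => ha.2, hred⟩

end Vale.Agent.P327.Full

namespace Vale.Agent.P327.Full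

open Filter Set PiNat TopologicalSpace

variable {π : Auto}

/-- The data `T`, `D`, `p` for a pair of chart inputs. -/
theorem pair_data (𝒜 : Atlas π) (i j : 𝒜.ι) {U V : Set Cantor} (hU : Fat (𝒜.A i) U)
    (hV : Fat (𝒜.A j) V) :
    Fat (𝒜.A i ×ˢ 𝒜.A j) (U ×ˢ V) ∧ 𝒜.A i ×ˢ 𝒜.A j ⊆ 𝒜.Dm i ×ˢ 𝒜.Dm j ∧
      IsGδ (𝒜.Dm i ×ˢ 𝒜.Dm j) ∧
      ContinuousOn (fun p : Cantor × Cantor => join (𝒜.F i p.1) (𝒜.F j p.2))
        (𝒜.Dm i ×ˢ 𝒜.Dm j) := by
  refine ⟨hU.prod hV, prod_mono (𝒜.sub i) (𝒜.sub j), ?_, ?_⟩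
  · exact (isGδ_preimage continuous_fst (𝒜.gdel i)).inter
      (isGδ_preimage continuous_snd (𝒜.gdel j))
  · exact continuous_join.comp_continuousOn
      (((𝒜.cont i).comp continuousOn_fst fun p hp => hp.1).prodMk
        ((𝒜.cont j).comp continuousOn_snd fun p hp => hp.2))

/-- The image of a join of two inputs is computed by the chart values of the inputs. -/
theorem pair_value (𝒜 : Atlas π) (i j : 𝒜.ι) {a b c : Cantor} (ha : a ∈ 𝒜.A i)
    (hb : b ∈ 𝒜.A j) (h : TLe c (join a b)) :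
    TLe (π.f c) (join (𝒜.F i a) (𝒜.F j b)) :=
  tle_trans ((π.le_f _ _).2 h) (tle_trans (π.f_join_le a b) (tle_join
    (tle_trans (𝒜.val i a ha).2 (tle_join_left _ _))
    (tle_trans (𝒜.val j b hb).2 (tle_join_right _ _))))

end Vale.Agent.P327.Full
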