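import Vale.Agent.P327.Full.Law

/-! # Full rigidity: generic translations and links between charts -/

namespace Vale.Agent.P327.Full

open Filter Set PiNat TopologicalSpace

theorem isOpenMap_xr₂ : IsOpenMap fun p : Cantor × Cantor => xr p.1 p.2 := by
  have hc : Continuous fun p : Cantor × Cantor => (xr p.1 p.2, p.2) :=
    continuous_xr.prodMk continuous_snd
  have hi : ∀ p : Cantor × Cantor, (xr (xr p.1 p.2) p.2, p.2) = p := fun p =>
    Prod.ext (xr_cancel_right _ _) rfl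
  exact isOpenMap_fst.comp
    (IsOpenMap.of_inverse (f := fun p : Cantor × Cantor => (xr p.1 p.2, p.2)) hc hi hi)

theorem mst_sections_snd {U V : Set Cantor} {R : Cantor × Cantor → Prop}
    (h : ∀ᶠ p in Mst (U ×ˢ V), R p) : ∀ᶠ b in Mst V, ∀ᶠ a in Mst U, R (a, b) :=
  mst_sections (R := fun q => R (q.2, q.1))
    ((tendsto_mst (U := V ×ˢ U) (V := U ×ˢ V) continuous_swap
      (Homeomorph.prodComm Cantor Cantor).isOpenMap fun _ hp => ⟨hp.2, hp.1⟩).eventually h)

theorem box_in_open {V : Set (Cantor × Cantor)} (ho : IsOpen V) (hne : V.Nonempty) :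
    ∃ x y m, cylinder x m ×ˢ cylinder y m ⊆ V := by
  obtain ⟨⟨a, b⟩, hab⟩ := hne
  obtain ⟨u, w, hu, hw, ha, hb, huw⟩ := isOpen_prod_iff.1 ho a b hab
  obtain ⟨n, -, hn⟩ := exists_cylinder_subset hu ha 0
  obtain ⟨m, -, hm⟩ := exists_cylinder_subset hw hb 0
  exact ⟨a, b, max n m, (prod_mono ((cylinder_anti a (le_max_left n m)).trans hn)
    ((cylinder_anti b (le_max_right n m)).trans hm)).trans huw⟩

variable {π : Auto}

/-- The law of addition on two charts, with both inverse laws, on a box of one level. -/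
theorem add_law (𝒜 : Atlas π) (i j : 𝒜.ι) {U W : Set Cantor} (hUo : IsOpen U) (hUne : U.Nonempty)
    (hU : Fat (𝒜.A i) U) (hWo : IsOpen W) (hWne : W.Nonempty) (hW : Fat (𝒜.A j) W) :
    ∃ k x y m, cylinder x m ⊆ U ∧ cylinder y m ⊆ W ∧
      RedOn (Mst (cylinder x m ×ˢ cylinder y m)) (fun p => join (𝒜.F i p.1) (𝒜.F j p.2))
        (fun p => 𝒜.F k (xr p.1 p.2)) ∧
      RedOn (Mst (cylinder x m ×ˢ cylinder y m))
        (fun p => join (𝒜.F k (xr p.1 p.2)) (𝒜.F j p.2)) (fun p => 𝒜.F i p.1) ∧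
      RedOn (Mst (cylinder x m ×ˢ cylinder y m))
        (fun p => join (𝒜.F k (xr p.1 p.2)) (𝒜.F i p.1)) (fun p => 𝒜.F j p.2) := by
  obtain ⟨hT, hTD, hD, hp⟩ := pair_data 𝒜 i j hU hW
  obtain ⟨k, T', V, hVo, hVne, hVU, hT'T, hT', hmaps, -, -, hred⟩ := law π 𝒜 (Cantor × Cantor)
    _ _ _ _ (fun p => xr p.1 p.2) (hUo.prod hWo) (hUne.prod hWne) hT hTD hD hp continuous_xr
    isOpenMap_xr₂ fun a ha => pair_value 𝒜 i j ha.1 ha.2 (tle_xr _ _)
  let D' := (𝒜.Dm i ×ˢ 𝒜.Dm j) ∩ (fun p : Cantor × Cantor => xr p.1 p.2) ⁻¹' 𝒜.Dm k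
  have hD' : IsGδ D' := hD.inter (isGδ_preimage continuous_xr (𝒜.gdel k))
  have hsub : T' ⊆ D' := fun a ha => ⟨hTD (hT'T ha), 𝒜.sub k (hmaps ha)⟩
  have cs : ContinuousOn (fun p : Cantor × Cantor => 𝒜.F k (xr p.1 p.2)) D' :=
    (𝒜.cont k).comp continuous_xr.continuousOn fun a ha => ha.2
  have ci : ContinuousOn (fun p : Cantor × Cantor => 𝒜.F i p.1) D' :=
    (𝒜.cont i).comp continuousOn_fst fun a ha => ha.1.1
  have cj : ContinuousOn (fun p : Cantor × Cantor => 𝒜.F j p.2) D' :=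
    (𝒜.cont j).comp continuousOn_snd fun a ha => ha.1.2
  obtain ⟨V1, hV1o, hV1ne, hV1, hred1⟩ := uniform (Cantor × Cantor) T' D' V
    (fun p => join (𝒜.F k (xr p.1 p.2)) (𝒜.F j p.2)) (fun p => 𝒜.F i p.1) hVo hVne hT' hsub hD'
    (continuous_join.comp_continuousOn (cs.prodMk cj)) ci fun a ha => by
      refine tle_trans (𝒜.val i _ (hT'T ha).1).1 (pair_value 𝒜 k j (hmaps ha) (hT'T ha).2 ?_)
      have h := tle_xr (xr a.1 a.2) a.2
      rwa [xr_cancel_right] at h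
  obtain ⟨V2, hV2o, hV2ne, hV2, hred2⟩ := uniform (Cantor × Cantor) T' D' V1
    (fun p => join (𝒜.F k (xr p.1 p.2)) (𝒜.F i p.1)) (fun p => 𝒜.F j p.2) hV1o hV1ne
    (hT'.mono subset_rfl hV1) hsub hD' (continuous_join.comp_continuousOn (cs.prodMk ci)) cj
    fun a ha => by
      refine tle_trans (𝒜.val j _ (hT'T ha).2).1 (pair_value 𝒜 k i (hmaps ha) (hT'T ha).1 ?_)
      have h := tle_xr (xr a.1 a.2) a.1
      rwa [xr_comm a.1 a.2, xr_cancel_right, xr_comm a.2 a.1] at h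
  obtain ⟨x, y, m, hbox⟩ := box_in_open hV2o hV2ne
  have hboxV := (hbox.trans hV2).trans hV1
  exact ⟨k, x, y, m,
    fun a ha => (hVU (hboxV (Set.mk_mem_prod ha (self_mem_cylinder y m)))).1,
    fun b hb => (hVU (hboxV (Set.mk_mem_prod (self_mem_cylinder x m) hb))).2,
    hred.mono (mst_mono hboxV), hred1.mono (mst_mono (hbox.trans hV2)),
    hred2.mono (mst_mono hbox)⟩

/-- Generic translations on a subcylinder. -/
theorem trans_pin : TransPin := by
  intro π 𝒜 v i U hUo hUne hU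
  obtain ⟨k, x, y, m, hx, hy, ⟨G, hG⟩, ⟨H, hH⟩, -⟩ := add_law 𝒜 i i hUo hUne hU hUo hUne hU
  refine ⟨x, m, hx, fun P hP N pat hpat => ?_⟩
  have hsec := mst_sections_snd (hG.and hH)
  obtain ⟨b, hb, hbg, hP1⟩ := hP.pick avoid hU (isClopen_cylinder y m).isOpen
    (cylinder_nonempty _ _) hy hsec
  have hbm : cylinder (xr b pat) (max N m) ⊆ cylinder y m := fun z hz j hj => by
    rw [hz j (lt_of_lt_of_le hj (le_max_right _ _))]
    simp [xr, hb.2 j hj, hpat j hj]
  obtain ⟨b', hb', hbg', hP2⟩ := hP1.2.pick avoid hU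
    (isClopen_cylinder (xr b pat) (max N m)).isOpen (cylinder_nonempty _ _) (hbm.trans hy)
    (hsec.filter_mono (mst_mono hbm))
  have hd0 : ∀ j < m, xr b b' j = false := fun j hj => by
    simp [xr, hb'.2 j (lt_of_lt_of_le hj (le_max_right _ _)), hpat j hj]
  refine ⟨_, xr b b', hP1.trans hP2, hd0, fun j hj => ?_, ?_⟩
  · simp [xr, hb'.2 j (lt_of_lt_of_le hj (le_max_left _ _))]
  have hvb : TLe (𝒜.F i b) (π.f (join (join P b) b')) :=
    𝒜.val_le hb.1 (tle_trans (tle_join_right _ _) (tle_join_left _ _))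
  have hvb' : TLe (𝒜.F i b') (π.f (join (join P b) b')) := 𝒜.val_le hb'.1 (tle_join_right _ _)
  have s1 : RedOn (Mst (cylinder x m)) (fun a => join (𝒜.F i a) (𝒜.F i b))
      (fun a => 𝒜.F k (xr a b)) := ⟨G, hbg.mono fun a ha => ha.1⟩
  have s2 : RedOn (Mst (cylinder x m))
      (fun a => join (𝒜.F k (xr a b)) (𝒜.F i b')) (fun a => 𝒜.F i (xr a (xr b b'))) := by
    refine RedOn.congr (p := fun a => join (𝒜.F k (xr (xr a (xr b b')) b')) (𝒜.F i b'))
      (q := fun a => 𝒜.F i (xr a (xr b b'))) ⟨H, ?_⟩ ?_ (Eventually.of_forall fun _ => rfl)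
    · exact ((tendsto_xr (mapsTo_xr_low hd0)).eventually hbg').mono fun a ha => ha.2
    · exact Eventually.of_forall fun a => by rw [← xr_assoc, xr_cancel_right]
  exact (((RedOn.left.pair (RedOn.param hvb)).trans s1).pair (RedOn.param hvb')).trans s2

/-- Links between charts, in both directions. -/
theorem link_pin : LinkPin := by
  intro π 𝒜 v l i Ul Ui hlo hlne hl hio hine hi
  obtain ⟨k, y, c, m, hy, hc, ⟨G, hG⟩, ⟨H1, hH1⟩, ⟨H2, hH2⟩⟩ :=
    add_law 𝒜 l i hlo hlne hl hio hine hi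
  refine ⟨y, c, m, hy, hc, fun P hP => ?_⟩
  have hall := hG.and (hH1.and hH2)
  obtain ⟨y0, hy0, hy0g, hP1⟩ := hP.pick avoid hl (isClopen_cylinder y m).isOpen
    (cylinder_nonempty _ _) hy (mst_sections hall)
  obtain ⟨a0, ha0, ha0g, hP2⟩ := hP1.2.pick avoid hi (isClopen_cylinder c m).isOpen
    (cylinder_nonempty _ _) hc (mst_sections_snd hall)
  have he : ∀ j < m, xr y0 a0 j = xor (y j) (c j) := fun j hj => by
    simp [xr, hy0.2 j hj, ha0.2 j hj]
  have hvy : TLe (𝒜.F l y0) (π.f (join (join P y0) a0)) :=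
    𝒜.val_le hy0.1 (tle_trans (tle_join_right _ _) (tle_join_left _ _))
  have hva : TLe (𝒜.F i a0) (π.f (join (join P y0) a0)) := 𝒜.val_le ha0.1 (tle_join_right _ _)
  refine ⟨_, xr y0 a0, hP1.trans hP2, he, ?_, ?_⟩
  · have s1 : RedOn (Mst (cylinder y m)) (fun z => join (𝒜.F l z) (𝒜.F i a0))
        (fun z => 𝒜.F k (xr z a0)) := ⟨G, ha0g.mono fun a ha => ha.1⟩
    have s2 : RedOn (Mst (cylinder y m)) (fun z => join (𝒜.F k (xr z a0)) (𝒜.F l y0))
        (fun z => 𝒜.F i (xr z (xr y0 a0))) := by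
      refine RedOn.congr (p := fun z => join (𝒜.F k (xr y0 (xr z (xr y0 a0)))) (𝒜.F l y0))
        (q := fun z => 𝒜.F i (xr z (xr y0 a0))) ⟨H2, ?_⟩ ?_ (Eventually.of_forall fun _ => rfl)
      · exact ((tendsto_xr (mapsTo_xr he)).eventually hy0g).mono fun a ha => ha.2.2
      · refine Eventually.of_forall fun z => ?_
        rw [show xr y0 (xr z (xr y0 a0)) = xr z a0 by funext n; simp [xr]; cases z n <;> cases y0 n <;> simp]
    exact (((RedOn.left.pair (RedOn.param hva)).trans s1).pair (RedOn.param hvy)).trans s2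
  · have s1 : RedOn (Mst (cylinder c m)) (fun a => join (𝒜.F i a) (𝒜.F l y0))
        (fun a => 𝒜.F k (xr y0 a)) :=
      (RedOn.right.pair RedOn.left).trans ⟨G, hy0g.mono fun a ha => ha.1⟩
    have he' : ∀ j < m, xr y0 a0 j = xor (c j) (y j) := fun j hj => by
      rw [he j hj, Bool.xor_comm]
    have s2 : RedOn (Mst (cylinder c m)) (fun a => join (𝒜.F k (xr y0 a)) (𝒜.F i a0))
        (fun a => 𝒜.F l (xr a (xr y0 a0))) := by
      refine RedOn.congr (p := fun a => join (𝒜.F k (xr (xr a (xr y0 a0)) a0)) (𝒜.F i a0))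
        (q := fun a => 𝒜.F l (xr a (xr y0 a0))) ⟨H1, ?_⟩ ?_ (Eventually.of_forall fun _ => rfl)
      · exact ((tendsto_xr (mapsTo_xr he')).eventually ha0g).mono fun a ha => ha.2.1
      · refine Eventually.of_forall fun a => ?_
        rw [show xr (xr a (xr y0 a0)) a0 = xr y0 a by
          funext n; simp [xr]; cases a n <;> cases y0 n <;> rfl]
    exact (((RedOn.left.pair (RedOn.param hvy)).trans s1).pair (RedOn.param hva)).trans s2

end Vale.Agent.P327.Full
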