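import Vale.Agent.P327.Full.Tools

/-! # Full rigidity: the shift along a computable increasing sequence of positions -/

namespace Vale.Agent.P327.Full

open Filter Set PiNat TopologicalSpace

variable {s : ℕ → ℕ}

/-- The index of a position in the sequence, searched below the position. -/
def shIdx (s : ℕ → ℕ) (n : ℕ) : ℕ := (List.range (n + 1)).findIdx fun k => s k == n

theorem shIdx_eq (hs : StrictMono s) (k : ℕ) : shIdx s (s k) = k := by
  refine le_antisymm ?_ (le_findIdx_range ?_ fun i hi => ?_)
  · by_contra h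
    push Not at h
    have := List.not_of_lt_findIdx h
    simp at this
  · have := hs.id_le k
    simp only [id_eq] at this
    omega
  · simp [(hs hi).ne]

theorem shIdx_primrec (hp : Primrec s) : Primrec (shIdx s) := by
  refine Primrec.list_findIdx (Primrec.list_range.comp Primrec.succ) ?_
  exact (Primrec.beq.comp (hp.comp Primrec.snd) Primrec.fst).to₂

/-- The source position of the shift along `s`. -/
def shiftPos (s : ℕ → ℕ) (n : ℕ) : ℕ :=
  bif s (shIdx s n) == n then s (shIdx s n + 1) else n

/-- Shift the positions `s k` down by one and keep the others. -/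
def shiftS (s : ℕ → ℕ) (x : Cantor) : Cantor := fun n => x (shiftPos s n)

theorem shiftS_at (hs : StrictMono s) (x : Cantor) (k : ℕ) :
    shiftS s x (s k) = x (s (k + 1)) := by
  simp [shiftS, shiftPos, shIdx_eq hs k]

theorem shiftS_off (x : Cantor) {j : ℕ} (h : ∀ k, s k ≠ j) : shiftS s x j = x j := by
  simp [shiftS, shiftPos, beq_false_of_ne (h (shIdx s j))]

theorem shiftS_iterate (hs : StrictMono s) :
    ∀ (k : ℕ) (x : Cantor) (j : ℕ), (shiftS s)^[k] x (s j) = x (s (j + k))
  | 0, _, _ => rfl
  | k + 1, x, j => by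
    rw [Function.iterate_succ_apply, shiftS_iterate hs k, shiftS_at hs]
    rfl

theorem shiftS_xr (x y : Cantor) : shiftS s (xr x y) = xr (shiftS s x) (shiftS s y) := rfl

theorem shiftS_zero : shiftS s zero = zero := rfl

theorem tle_shiftS (hp : Primrec s) (x : Cantor) : TLe (shiftS s x) x := by
  have hpos : Primrec (shiftPos s) := Primrec.cond
    (Primrec.beq.comp (hp.comp (shIdx_primrec hp)) Primrec.id)
    (hp.comp (Primrec.succ.comp (shIdx_primrec hp))) Primrec.id
  convert tle_read hpos (Primrec.const false) x using 1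
  funext i
  simp [shiftS]

theorem continuous_shiftS : Continuous (shiftS s) := continuous_pi fun _ => continuous_apply _

theorem isOpenMap_shiftS (hs : StrictMono s) : IsOpenMap (shiftS s) := by
  intro O hO
  refine isOpen_iff_mem_nhds.2 ?_
  rintro _ ⟨x, hx, rfl⟩
  obtain ⟨n, -, hsub⟩ := exists_cylinder_subset hO hx 0
  refine Filter.mem_of_superset ((isClopen_cylinder (shiftS s x) n).isOpen.mem_nhds
    (self_mem_cylinder _ _)) fun z hz => ?_
  let w : Cantor := fun j => if s (shIdx s j) = j then
    (if shIdx s j = 0 then x j else z (s (shIdx s j - 1))) else z j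
  have hw : ∀ k, w (s (k + 1)) = z (s k) := fun k => by
    simp [w, shIdx_eq hs (k + 1)]
  refine ⟨w, hsub fun j hj => ?_, funext fun j => ?_⟩
  · by_cases h : ∃ k, s k = j
    · obtain ⟨k, rfl⟩ := h
      cases k with
      | zero => simp [w, shIdx_eq hs 0]
      | succ k =>
        rw [hw k, hz (s k) (lt_trans (hs (Nat.lt_succ_self k)) hj), shiftS_at hs]
    · push Not at h
      simp only [w, h (shIdx s j), if_false]
      rw [hz j hj, shiftS_off x h]
  · by_cases h : ∃ k, s k = j
    · obtain ⟨k, rfl⟩ := h
      rw [shiftS_at hs, hw k]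
    · push Not at h
      rw [shiftS_off w h]
      simp [w, h (shIdx s j)]

/-- The indicator of the positions with index in a finite set. -/
def ind (s : ℕ → ℕ) (S : Finset ℕ) : Cantor := fun n => decide (s (shIdx s n) = n ∧ shIdx s n ∈ S)

theorem ind_at (hs : StrictMono s) (S : Finset ℕ) (k : ℕ) : ind s S (s k) = decide (k ∈ S) := by
  simp [ind, shIdx_eq hs k]

theorem ind_off (S : Finset ℕ) {j : ℕ} (h : ∀ k, s k ≠ j) : ind s S j = false := by
  simp [ind, h (shIdx s j)]

theorem ind_low {L : ℕ} (hL : ∀ k, L ≤ s k) (S : Finset ℕ) {j : ℕ} (hj : j < L) :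
    ind s S j = false := ind_off S fun k e => absurd (hL k) (by omega)

theorem ind_empty : ind s ∅ = zero := funext fun n => by simp [ind, zero]

theorem ind_insert (hs : StrictMono s) {a : ℕ} {S : Finset ℕ} (ha : a ∉ S) :
    ind s (insert a S) = xr (single (s a)) (ind s S) := by
  funext n
  by_cases h : ∃ k, s k = n
  · obtain ⟨k, rfl⟩ := h
    by_cases hk : k = a
    · subst hk; simp [xr, single, ind_at hs, ha]
    · simp [xr, single, ind_at hs, hk, hs.injective.ne hk]
  · push Not at h
    simp [xr, single, ind_off _ h, Ne.symm (h a)]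

/-- Index sets move down by one under the shift. -/
def down (S : Finset ℕ) : Finset ℕ := (S.erase 0).image fun k => k - 1

theorem mem_down {S : Finset ℕ} {k : ℕ} : k ∈ down S ↔ k + 1 ∈ S := by
  simp only [down, Finset.mem_image, Finset.mem_erase]
  constructor
  · rintro ⟨a, ⟨ha, haS⟩, rfl⟩
    rwa [show a - 1 + 1 = a by omega]
  · intro h
    exact ⟨k + 1, ⟨by omega, h⟩, by omega⟩

theorem shiftS_ind (hs : StrictMono s) (S : Finset ℕ) : shiftS s (ind s S) = ind s (down S) := by
  funext n
  by_cases h : ∃ k, s k = n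
  · obtain ⟨k, rfl⟩ := h
    simp [shiftS_at hs, ind_at hs, mem_down]
  · push Not at h
    rw [shiftS_off _ h, ind_off _ h, ind_off _ h]

end Vale.Agent.P327.Full
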