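import Vale.Agent.P327.Full.Law
import Vale.Agent.P327.Full.Shift

/-! # Full rigidity: the shift machine -/

namespace Vale.Agent.P327.Full

open Filter Set PiNat TopologicalSpace

/-- The functional with a constant answer. -/
def constFunc (b : Bool) : Func where
  f _ _ := some b
  prim := (Primrec.const (some b)).to₂
  mono _ _ _ _ _ h := h

theorem red_constFunc (b : Bool) (Y : Cantor) : Red (constFunc b) Y fun _ => b :=
  fun _ => ⟨0, rfl⟩

/-- The identity functional. -/
def idFunc : Func := Func.read id Primrec.id (fun _ => false) (Primrec.const false)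

theorem red_idFunc (Y : Cantor) : Red idFunc Y Y := by
  have h := red_read (hp := Primrec.id) (hw := Primrec.const false) Y
  have e : (fun n => xor (Y (id n)) false) = Y := funext fun n => by simp
  rwa [e] at h

variable {π : Auto} {𝒜 : Atlas π} {v : Cantor} {i : 𝒜.ι} {c : Cantor} {L : ℕ} {s : ℕ → ℕ}

theorem move_ind (hB : Base 𝒜 v i c L s) (S : Finset ℕ) : ∀ P, Ok π v P →
    ∃ P', Ext π v P P' ∧ Move 𝒜 P' i i (cylinder c L) (ind s S) := by
  induction S using Finset.induction with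
  | empty =>
    intro P hP
    refine ⟨P, Ext.refl hP, RedOn.left.congr (Eventually.of_forall fun _ => rfl)
      (Eventually.of_forall fun a => congrArg (𝒜.F i) ?_)⟩
    rw [ind_empty]; funext n; simp [xr, zero]
  | @insert a S ha ih =>
    intro P hP
    obtain ⟨P₁, h₁, hm₁⟩ := hB.exact' P hP a
    obtain ⟨P₂, h₂, hm₂⟩ := ih P₁ h₁.2
    refine ⟨P₂, h₁.trans h₂, ?_⟩
    rw [ind_insert hB.smono ha]
    refine Move.comp (hm₁.upgrade h₂.1) hm₂ (mapsTo_xr_low fun j hj => ?_)
    have := hB.sge a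
    simp [single]; omega

theorem move_inds (hB : Base 𝒜 v i c L s) (Fs : Finset (Finset ℕ)) : ∀ P, Ok π v P →
    ∃ P', Ext π v P P' ∧ ∀ S ∈ Fs, Move 𝒜 P' i i (cylinder c L) (ind s S) := by
  induction Fs using Finset.induction with
  | empty => exact fun P hP => ⟨P, Ext.refl hP, fun S hS => absurd hS (Finset.notMem_empty S)⟩
  | @insert S Fs _ ih =>
    intro P hP
    obtain ⟨P₁, h₁, hm₁⟩ := move_ind hB S P hP
    obtain ⟨P₂, h₂, hm₂⟩ := ih P₁ h₁.2
    refine ⟨P₂, h₁.trans h₂, fun T hT => ?_⟩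
    rcases Finset.mem_insert.1 hT with rfl | hT
    · exact hm₁.upgrade h₂.1
    · exact hm₂ T hT

theorem isOpen_prefix_set {x : Cantor} (k : ℕ) : IsOpen {y : Cantor | pre y k = pre x k} := by
  refine isOpen_iff_mem_nhds.2 fun y hy => Filter.mem_of_superset
    ((isClopen_cylinder y k).isOpen.mem_nhds (self_mem_cylinder _ _)) fun z hz => ?_
  have hy' : pre y k = pre x k := hy
  show pre z k = pre x k
  rw [← hy']
  exact List.map_congr_left fun j hj => hz j (List.mem_range.1 hj)

/-- The shift machine on part of the base. -/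
theorem machine (hL : LinkPin) : MachPin := by
  intro π 𝒜 v i c L s hB P hP
  classical
  let W := shiftS s
  have hWo : IsOpenMap W := isOpenMap_shiftS hB.smono
  have hcyl : IsOpen (cylinder c L) := (isClopen_cylinder c L).isOpen
  have hL0 : ∀ j < L, ∀ k, s k ≠ j := fun j hj k e => absurd (hB.sge k) (by omega)
  -- the law for the shift
  obtain ⟨l, T', V, hVo, hVne, hVU, -, -, -, hfatl, -, hred⟩ :=
    law π 𝒜 Cantor (𝒜.A i) (𝒜.Dm i) (cylinder c L) (𝒜.F i) W hcyl (cylinder_nonempty c L)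
      hB.fat (𝒜.sub i) (𝒜.gdel i) (𝒜.cont i) continuous_shiftS hWo
      fun a ha => tle_trans ((π.le_f _ _).2 (tle_shiftS hB.sprim a)) (𝒜.val i a ha).2
  -- link the image back into the base
  obtain ⟨y, c', m₁, hy, hc', hlink⟩ := hL π 𝒜 v l i (W '' V) (cylinder c L) (hWo V hVo)
    (hVne.image W) hfatl hcyl (cylinder_nonempty c L) hB.fat
  obtain ⟨P₁, e, hP₁, he, hmove, -⟩ := hlink P hP
  obtain ⟨v₀, hv₀, hv₀y⟩ := hy (self_mem_cylinder y m₁)
  obtain ⟨x₀, M, hM, hx₀⟩ := cylinder_subset_of_open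
    (hVo.inter ((isClopen_cylinder y m₁).isOpen.preimage (continuous_shiftS (s := s))))
    ⟨v₀, hv₀, (hv₀y.symm ▸ self_mem_cylinder y m₁ : W v₀ ∈ cylinder y m₁)⟩ (max L (s 0 + 1))
  have hx₀V : cylinder x₀ M ⊆ V := fun a ha => (hx₀ ha).1
  have hx₀c : cylinder x₀ M ⊆ cylinder c L := hx₀V.trans hVU
  have hx₀y : MapsTo W (cylinder x₀ M) (cylinder y m₁) := fun a ha => (hx₀ ha).2
  have hs0M : s 0 < M := lt_of_lt_of_le (Nat.lt_succ_self _) (le_trans (le_max_right L _) hM)
  have hWe : MapsTo (fun a => xr (W a) e) (cylinder x₀ M) (cylinder c L) := fun a ha =>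
    hc' (mapsTo_xr he (hx₀y ha))
  have elow : ∀ j < L, e j = false := fun j hj => by
    have h1 : xor (W x₀ j) (e j) = c j := hWe (self_mem_cylinder x₀ M) j hj
    have h2 : W x₀ j = x₀ j := shiftS_off x₀ (hL0 j hj)
    have h3 : x₀ j = c j := hx₀c (self_mem_cylinder x₀ M) j hj
    rw [h2, h3] at h1
    cases hc0 : c j <;> simp [hc0] at h1 <;> exact h1
  -- detector
  obtain ⟨x₁, ⟨hx₁A, hx₁⟩, -⟩ := hB.fat.exists_mem (R := fun _ => True)
    (isClopen_cylinder x₀ M).isOpen (cylinder_nonempty x₀ M) hx₀c (Eventually.of_forall fun _ => trivial)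
  have hx₁D : x₁ ∈ 𝒜.Dm i := 𝒜.sub i hx₁A
  obtain ⟨mη, hη⟩ := 𝒜.inv i x₁ hx₁D M
  obtain ⟨O, hOo, hO⟩ := continuousOn_iff'.1 (𝒜.cont i) _ (isOpen_prefix_set (x := 𝒜.F i x₁) mη)
  obtain ⟨M₂, hMM₂, hM₂⟩ := exists_cylinder_subset hOo
    ((Set.ext_iff.1 hO x₁).1 ⟨rfl, hx₁D⟩).1 M
  have hdet : ∀ b ∈ cylinder x₁ M₂, b ∈ 𝒜.Dm i → pre (𝒜.F i b) mη = pre (𝒜.F i x₁) mη :=
    fun b hb hbD => ((Set.ext_iff.1 hO b).2 ⟨hM₂ hb, hbD⟩).1
  have hx₁c : x₁ ∈ cylinder c L := hx₀c hx₁
  -- correct the constant off the sequence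
  obtain ⟨P₂, d, hP₂, hdlow, hdpat, hmoved⟩ := hB.gen P₁ hP₁.2 M₂
    (fun j => if L ≤ j ∧ ∀ k, s k ≠ j then e j else false)
    (fun j hj => if_neg fun h => absurd h.1 (by omega))
  let q : Cantor := xr e d
  have qlow : ∀ j < L, q j = false := fun j hj => by simp [q, xr, elow j hj, hdlow j hj]
  have qoff : ∀ j < M₂, (∀ k, s k ≠ j) → q j = false := fun j hj hk => by
    by_cases h : L ≤ j
    · have := hdpat j hj
      rw [if_pos ⟨h, hk⟩] at this
      simp [q, xr, this]
    · exact qlow j (by omega)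
  let Φ : Cantor → Cantor := fun a => xr (W a) q
  have hΦc : Continuous Φ := (continuous_xr_right q).comp continuous_shiftS
  have hΦo : IsOpenMap Φ := (isOpenMap_xr_right q).comp hWo
  have hΦcyl : MapsTo Φ (cylinder c L) (cylinder c L) := fun a ha j hj => by
    have h2 : W a j = a j := shiftS_off a (hL0 j hj)
    simp [Φ, xr, h2, ha j hj, qlow j hj]
  -- all translations by index sets
  let Ss : Finset (Finset ℕ) := (Finset.range M₂).powerset
  obtain ⟨P₃, hP₃, hmoves⟩ := move_inds hB (Ss ∪ Ss.image down) P₂ hP₂.2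
  -- one step on the detecting cylinder
  have hstep : RedOn (Mst (cylinder x₀ M)) (fun a => join (𝒜.F i a) (π.f P₃))
      (fun a => 𝒜.F i (Φ a)) := by
    have h1 : RedOn (Mst (cylinder x₀ M)) (fun a => join (𝒜.F i a) (π.f P₁))
        (fun a => 𝒜.F i (xr (W a) e)) :=
      (RedOn.pair (RedOn.left.trans (RedOn.mono hred (mst_mono hx₀V))) RedOn.right).trans
        (RedOn.map hmove (tendsto_mst continuous_shiftS hWo hx₀y))
    have h2 : RedOn (Mst (cylinder x₀ M)) (fun a => join (𝒜.F i a) (π.f P₂))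
        (fun a => 𝒜.F i (xr (xr (W a) e) d)) :=
      (RedOn.pair (RedOn.upgrade π h1 hP₂.1) RedOn.right).trans
        (RedOn.map hmoved (tendsto_mst ((continuous_xr_right e).comp continuous_shiftS)
          ((isOpenMap_xr_right e).comp hWo) hWe))
    exact (RedOn.upgrade π h2 hP₃.1).congr (Eventually.of_forall fun _ => rfl)
      (Eventually.of_forall fun a => congrArg (𝒜.F i) (xr_assoc _ _ _))
  obtain ⟨St, hSt⟩ := hstep
  -- translations as functionals
  have hmv : ∀ S : Finset ℕ, ∃ F : Func, S ∈ Ss ∪ Ss.image down → ∀ᶠ a in Mst (cylinder c L),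
      Red F (join (𝒜.F i a) (π.f P₃)) (𝒜.F i (xr a (ind s S))) := fun S => by
    by_cases h : S ∈ Ss ∪ Ss.image down
    · obtain ⟨F, hF⟩ := hmoves S h
      exact ⟨F, fun _ => hF⟩
    · exact ⟨idFunc, fun h' => absurd h' h⟩
  choose Mv hMv using hmv
  let R : Set Cantor := {x | x ∈ cylinder c L ∧ ∀ j < M₂, (∀ k, s k ≠ j) → x j = x₁ j}
  have hRo : IsOpen R := isOpen_iff_mem_nhds.2 fun x hx => Filter.mem_of_superset
    ((isClopen_cylinder x (max L M₂)).isOpen.mem_nhds (self_mem_cylinder _ _)) fun z hz =>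
      ⟨fun j hj => (hz j (lt_of_lt_of_le hj (le_max_left _ _))).trans (hx.1 j hj),
        fun j hj hk => (hz j (lt_of_lt_of_le hj (le_max_right _ _))).trans (hx.2 j hj hk)⟩
  have hRc : R ⊆ cylinder c L := fun x hx => hx.1
  have hΦR : MapsTo Φ R R := fun a ha => ⟨hΦcyl ha.1, fun j hj hk => by
    have h2 : W a j = a j := shiftS_off a hk
    simp [Φ, xr, h2, ha.2 j hj hk, qoff j hj hk]⟩
  have hδ : ∀ S, MapsTo (fun a => xr a (ind s S)) (cylinder c L) (cylinder c L) := fun S =>
    mapsTo_xr_low fun j hj => ind_low hB.sge S hj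
  have hDm : ∀ᶠ a in Mst (cylinder c L), a ∈ 𝒜.Dm i := mst_of_fat hB.fat hcyl (𝒜.sub i) (𝒜.gdel i)
  have hSt' : ∀ᶠ b in Mst (cylinder c L), b ∈ cylinder x₀ M →
      Red St (join (𝒜.F i b) (π.f P₃)) (𝒜.F i (Φ b)) :=
    mst_of_residual (mst_iff.1 hSt)
  let Good : Cantor → Prop := fun a => ∀ S ∈ Ss,
    Red (Mv S) (join (𝒜.F i a) (π.f P₃)) (𝒜.F i (xr a (ind s S))) ∧
    xr a (ind s S) ∈ 𝒜.Dm i ∧
    (xr a (ind s S) ∈ cylinder x₀ M →
      Red St (join (𝒜.F i (xr a (ind s S))) (π.f P₃)) (𝒜.F i (Φ (xr a (ind s S))))) ∧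
    Red (Mv (down S)) (join (𝒜.F i (Φ (xr a (ind s S)))) (π.f P₃))
      (𝒜.F i (xr (Φ (xr a (ind s S))) (ind s (down S))))
  have hGood : ∀ᶠ a in Mst (cylinder c L), Good a := by
    refine mst_forall fun S => ?_
    by_cases hS : S ∈ Ss
    · have t1 := tendsto_xr (hδ S)
      have t2 : Tendsto (fun a => Φ (xr a (ind s S))) (Mst (cylinder c L)) (Mst (cylinder c L)) :=
        tendsto_mst (hΦc.comp (continuous_xr_right _)) (hΦo.comp (isOpenMap_xr_right _))
          (hΦcyl.comp (hδ S))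
      filter_upwards [hMv S (Finset.mem_union_left _ hS), t1.eventually hDm, t1.eventually hSt',
        t2.eventually (hMv (down S) (Finset.mem_union_right _ (Finset.mem_image_of_mem _ hS)))]
        with a h1 h2 h3 h4
      exact fun _ => ⟨h1, h2, h3, h4⟩
    · exact Eventually.of_forall fun _ h => absurd h hS
  let T : Cantor → Prop := fun a => a ∈ R ∧ ∀ n : ℕ, Good (Φ^[n] a)
  have hT : ∀ᶠ a in Mst R, T a := by
    refine (mst_self R).and (mst_forall fun n => ?_)
    have ht : Tendsto (Φ^[n]) (Mst R) (Mst R) := by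
      induction n with
      | zero => exact tendsto_id
      | succ n ih =>
        rw [Function.iterate_succ']
        exact (tendsto_mst hΦc hΦo hΦR).comp ih
    exact ht.eventually (hGood.filter_mono (mst_mono hRc))
  -- the branching functional
  let Y : Cantor → Cantor := fun a => join (𝒜.F i a) (π.f P₃)
  let out : Cantor → Cantor := fun a => join (fun _ => a (s 0)) (Y (Φ a))
  let det : Finset ℕ → Cantor → Prop := fun S a =>
    pre (𝒜.F i (xr a (ind s S))) mη = pre (𝒜.F i x₁) mη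
  have hbranch : ∀ S ∈ Ss, ∃ G : Func, ∀ a, Good a → det S a → Red G (Y a) (out a) := by
    intro S hS
    refine ⟨Func.pair (constFunc (xor (x₁ (s 0)) (decide (0 ∈ S))))
      (Func.pair (Func.comp (Mv (down S)) (Func.pair (Func.comp St (Func.pair (Mv S) Func.right))
        Func.right)) Func.right), fun a ha hd => ?_⟩
    obtain ⟨h1, h2, h3, h4⟩ := ha S hS
    have hin : xr a (ind s S) ∈ cylinder x₁ M := hη _ h2 hd
    have hbit : xor (x₁ (s 0)) (decide (0 ∈ S)) = a (s 0) := by
      rw [← hin (s 0) hs0M]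
      simp [xr, ind_at hB.smono]
    have e1 : xr (Φ (xr a (ind s S))) (ind s (down S)) = Φ a := by
      rw [← shiftS_ind hB.smono]
      funext j
      simp [Φ, W, xr, shiftS]
      cases a (shiftPos s j) <;> cases ind s S (shiftPos s j) <;> cases q j <;> rfl
    have r1 := red_comp (red_pair h1 (red_right _ _))
      (h3 (cylinder_congr hx₁ ▸ hin))
    have r2 := red_comp (red_pair r1 (red_right _ _)) h4
    rw [e1] at r2
    rw [hbit]
    exact red_pair (red_constFunc _ _) (red_pair r2 (red_right _ _))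
  have hcases : ∀ Fs : Finset (Finset ℕ), Fs ⊆ Ss → ∃ H : Func,
      ∀ a, Good a → (∃ S ∈ Fs, det S a) → Red H (Y a) (out a) := by
    intro Fs
    induction Fs using Finset.induction with
    | empty => exact fun _ => ⟨idFunc, fun a _ ⟨S, hS, _⟩ => absurd hS (Finset.notMem_empty S)⟩
    | @insert S Fs _ ih =>
      intro hsub
      obtain ⟨H, hH⟩ := ih fun T hT => hsub (Finset.mem_insert_of_mem hT)
      obtain ⟨G, hG⟩ := hbranch S (hsub (Finset.mem_insert_self S Fs))
      let g : List Bool → Bool := fun lst => decide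
        (((List.range mη).map fun j => lst.getD (2 * j) false) = pre (𝒜.F i x₁) mη)
      refine ⟨Func.comp (Func.branch (2 * mη) g (Func.comp G Func.right) (Func.comp H Func.right))
        (Func.pair (Mv S) idFunc), fun a ha hd => ?_⟩
      refine red_comp (red_pair (ha S (hsub (Finset.mem_insert_self S Fs))).1 (red_idFunc _))
        (red_branch ?_)
      have hg : g (pre (join (𝒜.F i (xr a (ind s S))) (Y a)) (2 * mη)) = decide (det S a) := by
        have : ((List.range mη).map fun j =>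
            (pre (join (𝒜.F i (xr a (ind s S))) (Y a)) (2 * mη)).getD (2 * j) false) =
            pre (𝒜.F i (xr a (ind s S))) mη := List.map_congr_left fun j hj => by
          rw [pre_getD _ (by have := List.mem_range.1 hj; omega), join_even]
        simp only [g, det]
        rw [this]
      by_cases hdS : det S a
      · rw [if_pos (by rw [hg]; exact decide_eq_true hdS)]
        exact red_comp (red_right _ _) (hG a ha hdS)
      · rw [if_neg (by rw [hg]; simp [hdS])]
        obtain ⟨T, hT, hTd⟩ := hd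
        exact red_comp (red_right _ _) (hH a ha ⟨T,
          (Finset.mem_insert.1 hT).resolve_left (fun h => hdS (h ▸ hTd)), hTd⟩)
  obtain ⟨H, hH⟩ := hcases Ss subset_rfl
  have hone : ∀ a ∈ R, Good a → Red H (Y a) (out a) := by
    intro a haR ha
    refine hH a ha ?_
    let S : Finset ℕ := (Finset.range M₂).filter fun k => s k < M₂ ∧ a (s k) ≠ x₁ (s k)
    have hS : S ∈ Ss := Finset.mem_powerset.2 (Finset.filter_subset _ _)
    refine ⟨S, hS, hdet _ (fun j hj => ?_) (ha S hS).2.1⟩
    by_cases h : ∃ k, s k = j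
    · obtain ⟨k, rfl⟩ := h
      have hk : k < M₂ := lt_of_le_of_lt (by simpa using hB.smono.id_le k) hj
      simp only [xr, ind_at hB.smono, S, Finset.mem_filter, Finset.mem_range, hk, hj, true_and]
      cases a (s k) <;> cases x₁ (s k) <;> rfl
    · push Not at h
      simp [xr, ind_off _ h, haR.2 j hj h]
  let M' : Func := Func.comp H Func.right
  let h1 : List Bool → Bool := fun lst => lst.getD 0 false
  refine ⟨P₃, R, fun k => Φ^[k] zero (s 0), (hP₁.trans hP₂).trans hP₃, hRo,
    ⟨x₁, hx₁c, fun _ _ _ => rfl⟩, hRc, Func.comp (Func.iter M' 1 h1) H, ?_⟩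
  refine hT.mono fun a ha => ?_
  let S : ℕ → Cantor := fun n => out (Φ^[n] a)
  have hiterR : ∀ n, Φ^[n] a ∈ R := fun n => by
    induction n with
    | zero => exact ha.1
    | succ n ih => rw [Function.iterate_succ_apply']; exact hΦR ih
  have hS : ∀ n, Red M' (S n) (S (n + 1)) := fun n => by
    have e : Φ (Φ^[n] a) = Φ^[n + 1] a := (Function.iterate_succ_apply' Φ n a).symm
    refine red_comp (red_right _ _) ?_
    show Red H (Y (Φ (Φ^[n] a))) (out (Φ^[n + 1] a))
    rw [e]
    exact hone _ (hiterR _) (ha.2 _)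
  have hlin : ∀ n, Φ^[n] a = xr ((shiftS s)^[n] a) (Φ^[n] zero) := fun n => by
    induction n with
    | zero => funext j; simp [xr, zero]
    | succ n ih =>
      rw [Function.iterate_succ_apply', Function.iterate_succ_apply', Function.iterate_succ_apply',
        ih]
      funext j
      simp [Φ, W, xr, shiftS]
  refine red_comp (hone a ha.1 (ha.2 0)) (red_iter (S := S) hS fun n => ?_)
  show h1 (pre (S n) 1) = xor (a (s n)) (Φ^[n] zero (s 0))
  simp only [h1]
  rw [pre_getD _ Nat.one_pos]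
  show join (fun _ => (Φ^[n] a) (s 0)) (Y (Φ (Φ^[n] a))) (2 * 0) = _
  rw [join_even, hlin n]
  simp [xr, shiftS_iterate hB.smono n a 0]

end Vale.Agent.P327.Full
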