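import Vale.Agent.P327.Full.Defs

/-! # Full rigidity: the interfaces between the blocks -/

namespace Vale.Agent.P327.Full

open Filter Set PiNat TopologicalSpace

/-- Block ATLAS: countably many continuous charts cover everything. -/
def AtlasPin : Prop := ∀ π : Auto, Nonempty (Atlas π)

/-- Block AVOID: a set not below `v` is not below `v` joined with almost any point. -/
def AvoidPin : Prop :=
  ∀ c v : Cantor, ¬TLe c v → ∀ᶠ a in residual Cantor, ¬TLe c (join v a)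

/-- Block LAW: a pointwise reduction on a fat set is uniform on an open part. -/
def UniformPin : Prop :=
  ∀ (Y : Type) [TopologicalSpace Y] [BaireSpace Y] [SecondCountableTopology Y]
    (T D U : Set Y) (p q : Y → Cantor), IsOpen U → U.Nonempty → Fat T U → T ⊆ D → IsGδ D →
    ContinuousOn p D → ContinuousOn q D → (∀ a ∈ T, TLe (q a) (p a)) →
    ∃ V, IsOpen V ∧ V.Nonempty ∧ V ⊆ U ∧ RedOn (Mst V) p q

/-- Block LAW: the chart of an output, with its functional. -/
def LawPin : Prop :=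
  ∀ (π : Auto) (𝒜 : Atlas π) (Y : Type) [TopologicalSpace Y] [BaireSpace Y]
    [SecondCountableTopology Y] (T D U : Set Y) (p : Y → Cantor) (op : Y → Cantor),
    IsOpen U → U.Nonempty → Fat T U → T ⊆ D → IsGδ D → ContinuousOn p D →
    Continuous op → IsOpenMap op → (∀ a ∈ T, TLe (π.f (op a)) (p a)) →
    ∃ l T' V, IsOpen V ∧ V.Nonempty ∧ V ⊆ U ∧ T' ⊆ T ∧ Fat T' V ∧
      MapsTo op T' (𝒜.A l) ∧ Fat (𝒜.A l) (op '' V) ∧ (∀ᶠ a in Mst V, op a ∈ 𝒜.Dm l) ∧
      RedOn (Mst V) p fun a => 𝒜.F l (op a)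

/-- Block LINK: generic translations on a subcylinder. -/
def TransPin : Prop :=
  ∀ (π : Auto) (𝒜 : Atlas π) (v : Cantor) (i : 𝒜.ι) (U : Set Cantor),
    IsOpen U → U.Nonempty → Fat (𝒜.A i) U →
    ∃ c m, cylinder c m ⊆ U ∧ ∀ P, Ok π v P → ∀ (N : ℕ) (pat : Cantor),
      (∀ j < m, pat j = false) → ∃ P' d, Ext π v P P' ∧ (∀ j < m, d j = false) ∧
        (∀ j < N, d j = pat j) ∧ Move 𝒜 P' i i (cylinder c m) d

/-- Block LINK: two charts are joined by a translation, in both directions. -/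
def LinkPin : Prop :=
  ∀ (π : Auto) (𝒜 : Atlas π) (v : Cantor) (l i : 𝒜.ι) (Ul Ui : Set Cantor),
    IsOpen Ul → Ul.Nonempty → Fat (𝒜.A l) Ul → IsOpen Ui → Ui.Nonempty → Fat (𝒜.A i) Ui →
    ∃ y c m, cylinder y m ⊆ Ul ∧ cylinder c m ⊆ Ui ∧ ∀ P, Ok π v P →
      ∃ P' e, Ext π v P P' ∧ (∀ j < m, e j = xor (y j) (c j)) ∧
        Move 𝒜 P' l i (cylinder y m) e ∧ Move 𝒜 P' i l (cylinder c m) e

/-- Block EXACT: a cylinder with exact translations along a computable sequence of positions. -/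
def ExactPin : Prop :=
  ∀ (π : Auto) (𝒜 : Atlas π) (v : Cantor), Ok π v zero →
    ∃ i c L s, Base 𝒜 v i c L s

/-- Block MACHINE: the shift machine on part of the base. -/
def MachPin : Prop :=
  ∀ (π : Auto) (𝒜 : Atlas π) (v : Cantor) (i : 𝒜.ι) (c : Cantor) (L : ℕ) (s : ℕ → ℕ),
    Base 𝒜 v i c L s → ∀ P, Ok π v P →
      ∃ P' R C, Ext π v P P' ∧ IsOpen R ∧ R.Nonempty ∧ R ⊆ cylinder c L ∧ Mach 𝒜 P' s i R C

/-- Block REMOVE: machines without the constant. -/
def RemovePin : Prop :=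
  ∀ (π : Auto) (𝒜 : Atlas π) (v : Cantor) (s : ℕ → ℕ), StrictMono s → Primrec s →
    HasMach 𝒜 v s → HasRead 𝒜 v s

/-- Block FINISH: exact machines everywhere refute the avoiding context. -/
def FinishPin : Prop :=
  ∀ (π : Auto) (𝒜 : Atlas π) (v : Cantor) (s : ℕ → ℕ), StrictMono s → Primrec s →
    HasRead 𝒜 v s → ¬Ok π v zero

end Vale.Agent.P327.Full
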