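import Vale.Agent.P327.Full.Tools
import Vale.Agent.P327.Full.RemoveOps

/-! Full rigidity, block REMOVE: machines with a constant yield exact machines. -/

namespace Vale.Agent.P327.Full

open Filter Set PiNat

theorem xor_cancel_const (a b c : Bool) : xor (xor a c) (xor b c) = xor a b := by
  cases a <;> cases b <;> cases c <;> rfl

theorem elim_const : ∀ x r r' w w' c cq d : Bool, xor (xor r cq) (xor r' cq) = true →
    xor (xor (xor (xor w cq) (xor (xor w (x && r)) d)) (xor x c && xor r cq))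
      (xor (xor (xor w' cq) (xor (xor w' (x && r')) d)) (xor x c && xor r' cq)) = c := by
  decide

/-- From two mixed triples with the same first entry the constant becomes computable. -/
theorem const_le {s : ℕ → ℕ} (hs : StrictMono s) {C D x r w r' w' Z : Cantor}
    (hx : TLe (fun k => xor (x (s k)) (C k)) Z)
    (hr : TLe (fun k => xor (r (s k)) (C k)) Z) (hw : TLe (fun k => xor (w (s k)) (C k)) Z)
    (hy : TLe (fun k => xor (mix s (x, r, w) (s k)) (D k)) Z)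
    (hr' : TLe (fun k => xor (r' (s k)) (C k)) Z) (hw' : TLe (fun k => xor (w' (s k)) (C k)) Z)
    (hy' : TLe (fun k => xor (mix s (x, r', w') (s k)) (D k)) Z)
    (hrow : ∀ n, ∃ t, xor (r (s (Nat.pair n t))) (r' (s (Nat.pair n t))) = true) :
    TLe C Z := by
  have hX := tle_comp hx (Primrec.fst.comp Primrec.unpair)
  have hE := tle_bin Bool.xor (tle_bin Bool.xor hw hy) (tle_bin Bool.and hX hr)
  have hE' := tle_bin Bool.xor (tle_bin Bool.xor hw' hy') (tle_bin Bool.and hX hr')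
  refine tle_search (tle_bin Bool.xor hr hr') (tle_bin Bool.xor hE hE') (fun n t ht => ?_) fun n => ?_
  · simp only [mix_apply hs, Nat.unpair_pair] at ht ⊢
    exact elim_const _ _ _ _ _ _ _ _ ht
  · obtain ⟨t, ht⟩ := hrow n
    exact ⟨t, (xor_cancel_const _ _ _).trans ht⟩

theorem remove (hlaw : LawPin) (havoid : AvoidPin) : RemovePin := by
  intro π 𝒜 v s hs hsp hmach l U hUo hUne hfat P hok
  obtain ⟨P₁, V₁, C, hE₁, hV₁o, hV₁ne, hV₁, hM₁⟩ := hmach l U hUo hUne hfat P hok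
  have hA₁ : Fat (𝒜.A l) V₁ := hfat.mono subset_rfl hV₁
  let op : Cantor × Cantor × Cantor → Cantor := mix s
  let p : Cantor × Cantor × Cantor → Cantor :=
    fun a => join (𝒜.F l a.1) (join (𝒜.F l a.2.1) (𝒜.F l a.2.2))
  let Dm := 𝒜.Dm l
  have hD : IsGδ (Dm ×ˢ Dm ×ˢ Dm) := by
    have h := 𝒜.gdel l
    exact ((h.preimage continuous_fst).inter (((h.preimage continuous_fst).inter
      (h.preimage continuous_snd)).preimage continuous_snd))
  have hp : ContinuousOn p (Dm ×ˢ Dm ×ˢ Dm) := by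
    have hF := 𝒜.cont l
    exact continuous_join.comp_continuousOn ((hF.comp continuousOn_fst fun a ha => ha.1).prodMk
      (continuous_join.comp_continuousOn
        ((hF.comp (continuous_fst.comp continuous_snd).continuousOn fun a ha => ha.2.1).prodMk
          (hF.comp (continuous_snd.comp continuous_snd).continuousOn fun a ha => ha.2.2))))
  obtain ⟨m, -, W, hWo, hWne, hWsub, -, -, -, hAm, -, hL⟩ :=
    hlaw π 𝒜 _ (𝒜.A l ×ˢ 𝒜.A l ×ˢ 𝒜.A l) (Dm ×ˢ Dm ×ˢ Dm) (V₁ ×ˢ V₁ ×ˢ V₁) p op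
      (hV₁o.prod (hV₁o.prod hV₁o)) (hV₁ne.prod (hV₁ne.prod hV₁ne)) (hA₁.prod (hA₁.prod hA₁))
      (prod_mono (𝒜.sub l) (prod_mono (𝒜.sub l) (𝒜.sub l))) hD hp (continuous_mix s)
      (isOpenMap_mix s) fun a ha => by
        refine tle_trans ((π.le_f _ _).2 (tle_mix hsp a.1 a.2.1 a.2.2)) ?_
        refine tle_trans (π.f_join_le _ _) (tle_join (tle_trans (𝒜.val l _ ha.1).2
          (tle_join_left _ _)) (tle_trans (π.f_join_le _ _) (tle_join ?_ ?_)))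
        · exact tle_trans (𝒜.val l _ ha.2.1).2
            (tle_trans (tle_join_left _ _) (tle_join_right _ _))
        · exact tle_trans (𝒜.val l _ ha.2.2).2
            (tle_trans (tle_join_right _ _) (tle_join_right _ _))
  obtain ⟨P₂, V₂, D, hE₂, hV₂o, hV₂ne, hV₂, hM₂⟩ :=
    hmach m _ (isOpenMap_mix s _ hWo) (hWne.image _) hAm P₁ hE₁.2
  -- a box inside the part of `W` that maps into `V₂`
  have hW'o : IsOpen (W ∩ op ⁻¹' V₂) := hWo.inter (hV₂o.preimage (continuous_mix s))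
  obtain ⟨⟨x₀, b₀⟩, hab⟩ : (W ∩ op ⁻¹' V₂).Nonempty := by
    obtain ⟨z, hz⟩ := hV₂ne
    obtain ⟨a, ha, rfl⟩ := hV₂ hz
    exact ⟨a, ha, hz⟩
  obtain ⟨Bx, B', hBxo, hB'o, hx₀, hb₀, hsub₁⟩ := isOpen_prod_iff.1 hW'o x₀ b₀ hab
  obtain ⟨Br, Bw, hBro, hBwo, hr₀, hw₀, hsub₂⟩ := isOpen_prod_iff.1 hB'o b₀.1 b₀.2 hb₀
  have hbox : Bx ×ˢ Br ×ˢ Bw ⊆ W ∩ op ⁻¹' V₂ :=
    fun a ha => hsub₁ ⟨ha.1, hsub₂ ha.2⟩
  have hBV : Bx ⊆ V₁ ∧ Br ⊆ V₁ ∧ Bw ⊆ V₁ :=
    ⟨fun a ha => (hWsub (hbox (show (a, b₀.1, b₀.2) ∈ _ from ⟨ha, hr₀, hw₀⟩)).1).1,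
      fun a ha => (hWsub (hbox (show (x₀, a, b₀.2) ∈ _ from ⟨hx₀, ha, hw₀⟩)).1).2.1,
      fun a ha => (hWsub (hbox (show (x₀, b₀.1, a) ∈ _ from ⟨hx₀, hr₀, ha⟩)).1).2.2⟩
  -- everything needed about a generic triple
  have hm₁ : ∀ᶠ a in Mst V₁, TLe (fun k => xor (a (s k)) (C k)) (join (𝒜.F l a) (π.f P₂)) :=
    RedOn.tle (hM₁.upgrade hE₂.1)
  have htriple : ∀ᶠ a in Mst (Bx ×ˢ Br ×ˢ Bw), TLe (𝒜.F m (op a)) (p a) ∧
      TLe (fun k => xor (op a (s k)) (D k)) (join (𝒜.F m (op a)) (π.f P₂)) :=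
    ((RedOn.tle hL).filter_mono (mst_mono fun a ha => (hbox ha).1)).and
      ((tendsto_mst (continuous_mix s) (isOpenMap_mix s) (V := V₂)
        fun a ha => (hbox ha).2).eventually (RedOn.tle hM₂))
  -- successive choice of the parameters
  obtain ⟨x, hxA, ⟨hxm, hsec⟩, hEx⟩ := Ok.pick havoid hE₂.2 hA₁ hBxo ⟨x₀, hx₀⟩ hBV.1
    ((hm₁.filter_mono (mst_mono hBV.1)).and (mst_sections htriple))
  obtain ⟨r, hrA, ⟨hrm, hsecr⟩, hEr⟩ := Ok.pick havoid hEx.2 hA₁ hBro ⟨_, hr₀⟩ hBV.2.1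
    ((hm₁.filter_mono (mst_mono hBV.2.1)).and (mst_sections hsec))
  obtain ⟨r', hr'A, ⟨hr'm, hsecr', hrow⟩, hEr'⟩ := Ok.pick havoid hEr.2 hA₁ hBro ⟨_, hr₀⟩ hBV.2.1
    ((hm₁.filter_mono (mst_mono hBV.2.1)).and ((mst_sections hsec).and
      (mst_of_residual (eventually_rows hs r))))
  obtain ⟨w, hwA, ⟨hwm, hy₁, hy⟩, hEw⟩ := Ok.pick havoid hEr'.2 hA₁ hBwo ⟨_, hw₀⟩ hBV.2.2
    ((hm₁.filter_mono (mst_mono hBV.2.2)).and hsecr)
  obtain ⟨w', hw'A, ⟨hw'm, hy'₁, hy'⟩, hEw'⟩ := Ok.pick havoid hEw.2 hA₁ hBwo ⟨_, hw₀⟩ hBV.2.2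
    ((hm₁.filter_mono (mst_mono hBV.2.2)).and hsecr')
  let P₃ : Cantor := join (join (join (join (join P₂ x) r) r') w) w'
  have hE₃ : Ext π v P₂ P₃ := (((hEx.trans hEr).trans hEr').trans hEw).trans hEw'
  refine ⟨P₃, V₁, (hE₁.trans hE₂).trans hE₃, hV₁o, hV₁ne, hV₁, ?_⟩
  -- the values at the parameters
  have lw' : TLe w' P₃ := tle_join_right _ _
  have lw : TLe w P₃ := tle_trans (tle_join_right _ _) (tle_join_left _ _)
  have lr' : TLe r' P₃ := tle_trans (tle_join_right _ _)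
    (tle_trans (tle_join_left _ _) (tle_join_left _ _))
  have lr : TLe r P₃ := tle_trans (tle_join_right _ _)
    (tle_trans (tle_join_left _ _) (tle_trans (tle_join_left _ _) (tle_join_left _ _)))
  have lx : TLe x P₃ := tle_trans (tle_join_right _ _) (tle_trans (tle_join_left _ _)
    (tle_trans (tle_join_left _ _) (tle_trans (tle_join_left _ _) (tle_join_left _ _))))
  have hP₂ : TLe (π.f P₂) (π.f P₃) := (π.le_f _ _).2 hE₃.1
  have one : ∀ a : Cantor, a ∈ 𝒜.A l → TLe a P₃ →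
      TLe (fun k => xor (a (s k)) (C k)) (join (𝒜.F l a) (π.f P₂)) →
      TLe (fun k => xor (a (s k)) (C k)) (π.f P₃) :=
    fun a ha hle h => tle_trans h (tle_join (𝒜.val_le ha hle) hP₂)
  have two : ∀ a b c : Cantor, a ∈ 𝒜.A l → b ∈ 𝒜.A l → c ∈ 𝒜.A l → TLe a P₃ → TLe b P₃ →
      TLe c P₃ → TLe (𝒜.F m (op (a, b, c))) (p (a, b, c)) →
      TLe (fun k => xor (op (a, b, c) (s k)) (D k)) (join (𝒜.F m (op (a, b, c))) (π.f P₂)) →
      TLe (fun k => xor (op (a, b, c) (s k)) (D k)) (π.f P₃) :=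
    fun a b c ha hb hc la lb lc h h' => tle_trans h' (tle_join (tle_trans h (tle_join
      (𝒜.val_le ha la) (tle_join (𝒜.val_le hb lb) (𝒜.val_le hc lc)))) hP₂)
  have hC : TLe C (π.f P₃) := const_le hs (one x hxA.1 lx hxm) (one r hrA.1 lr hrm)
    (one w hwA.1 lw hwm) (two x r w hxA.1 hrA.1 hwA.1 lx lr lw hy₁ hy)
    (one r' hr'A.1 lr' hr'm) (one w' hw'A.1 lw' hw'm)
    (two x r' w' hxA.1 hr'A.1 hw'A.1 lx lr' lw' hy'₁ hy') hrow
  exact ((RedOn.pair ((hM₁.upgrade hE₂.1).upgrade hE₃.1) (RedOn.param hC)).trans RedOn.sum).congr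
    (Eventually.of_forall fun _ => rfl)
    (Eventually.of_forall fun a => funext fun k => by simp [xr])

end Vale.Agent.P327.Full
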