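import Vale.Agent.P327.Main
import Vale.Agent.P327.Full.Pins

/-! # Full rigidity: category tools and rules for parameters and moves -/

namespace Vale.Agent.P327.Full

open Filter Set PiNat TopologicalSpace

variable {Y Z : Type*} [TopologicalSpace Y] [TopologicalSpace Z]

/-! ## the filter `Mst` -/

theorem mst_iff {U : Set Y} {R : Y → Prop} :
    (∀ᶠ a in Mst U, R a) ↔ ∀ᶠ a in residual Y, a ∈ U → R a := eventually_inf_principal

theorem mst_self (U : Set Y) : ∀ᶠ a in Mst U, a ∈ U :=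
  mst_iff.2 (Eventually.of_forall fun _ h => h)

theorem mst_mono {U V : Set Y} (h : V ⊆ U) : Mst V ≤ Mst U :=
  inf_le_inf le_rfl (principal_mono.2 h)

theorem mst_of_residual {U : Set Y} {R : Y → Prop} (h : ∀ᶠ a in residual Y, R a) :
    ∀ᶠ a in Mst U, R a := mst_iff.2 (h.mono fun _ ha _ => ha)

theorem mst_forall {ι : Sort*} [Countable ι] {U : Set Y} {R : ι → Y → Prop}
    (h : ∀ i, ∀ᶠ a in Mst U, R i a) : ∀ᶠ a in Mst U, ∀ i, R i a :=
  mst_iff.2 ((eventually_countable_forall.2 fun i => mst_iff.1 (h i)).mono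
    fun _ ha hU i => ha i hU)

theorem tendsto_mst {h : Y → Z} (hc : Continuous h) (ho : IsOpenMap h) {U : Set Y} {V : Set Z}
    (hm : MapsTo h U V) : Tendsto h (Mst U) (Mst V) := by
  refine tendsto_iff_eventually.2 fun {R} hR => mst_iff.2 ?_
  have : h ⁻¹' {b | b ∈ V → R b} ∈ residual Y := residual_preimage hc ho (mst_iff.1 hR)
  exact Filter.mem_of_superset this fun a ha haU => ha (hm haU)

theorem mst_fst {U : Set Y} {V : Set Z} : Tendsto Prod.fst (Mst (U ×ˢ V)) (Mst U) :=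
  tendsto_mst continuous_fst isOpenMap_fst fun _ h => h.1

theorem mst_snd {U : Set Y} {V : Set Z} : Tendsto Prod.snd (Mst (U ×ˢ V)) (Mst V) :=
  tendsto_mst continuous_snd isOpenMap_snd fun _ h => h.2

theorem sections_residual [SecondCountableTopology Z] {S : Set (Y × Z)}
    (hS : S ∈ residual (Y × Z)) :
    {a | {b | (a, b) ∈ S} ∈ residual Z} ∈ residual Y := by
  obtain ⟨𝒰, hop, hde, hcount, hsub⟩ := mem_residual_iff.1 hS
  obtain ⟨b, hbc, hbne, hb⟩ := TopologicalSpace.exists_countable_basis Z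
  have key : ∀ U ∈ 𝒰, ∀ V ∈ b, (Prod.fst '' (U ∩ univ ×ˢ V)) ∈ residual Y := by
    intro U hU V hV
    have hVo := hb.isOpen hV
    have hVne : V.Nonempty := nonempty_iff_ne_empty.2 fun h => hbne (h ▸ hV)
    refine residual_of_dense_open
      (isOpenMap_fst _ ((hop U hU).inter (isOpen_univ.prod hVo))) ?_
    refine dense_iff_inter_open.2 fun W hW hWne => ?_
    obtain ⟨⟨a, c⟩, hac, hU'⟩ :=
      (hde U hU).inter_open_nonempty (W ×ˢ V) (hW.prod hVo) (hWne.prod hVne)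
    exact ⟨a, hac.1, (a, c), ⟨hU', mem_univ _, hac.2⟩, rfl⟩
  have := (countable_bInter_mem hcount).2 fun U hU => (countable_bInter_mem hbc).2 (key U hU)
  refine mem_of_superset this fun a ha => ?_
  refine mem_residual_iff.2 ⟨(fun U => {c | (a, c) ∈ U}) '' 𝒰, ?_, ?_, hcount.image _, ?_⟩
  · rintro _ ⟨U, hU, rfl⟩; exact (hop U hU).preimage (Continuous.prodMk_right a)
  · rintro _ ⟨U, hU, rfl⟩
    refine hb.dense_iff.2 fun V hV _ => ?_
    simp only [mem_iInter] at ha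
    obtain ⟨⟨a', c⟩, ⟨hU', -, hc⟩, rfl⟩ := ha U hU V hV
    exact ⟨c, hc, hU'⟩
  · intro c hc
    refine hsub ?_
    intro U hU
    exact hc _ ⟨U, hU, rfl⟩

theorem mst_sections [SecondCountableTopology Z] {U : Set Y} {V : Set Z} {R : Y × Z → Prop}
    (h : ∀ᶠ p in Mst (U ×ˢ V), R p) : ∀ᶠ a in Mst U, ∀ᶠ b in Mst V, R (a, b) := by
  have hs := sections_residual (mst_iff.1 h)
  refine mst_iff.2 (Filter.mem_of_superset hs fun a ha hU => mst_iff.2 ?_)
  exact Filter.mem_of_superset ha fun b hb hV => hb ⟨hU, hV⟩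

/-! ## fatness -/

theorem Fat.mono {A A' U U' : Set Y} (h : Fat A U) (hA : A ⊆ A') (hU : U' ⊆ U) : Fat A' U' :=
  fun V ho hne hV hm => h V ho hne (hV.trans hU) (hm.mono (inter_subset_inter_left _ hA))

theorem Fat.exists_mem {A U V : Set Y} (h : Fat A U) (ho : IsOpen V) (hne : V.Nonempty)
    (hVU : V ⊆ U) {R : Y → Prop} (hR : ∀ᶠ a in Mst V, R a) : ∃ a ∈ A ∩ V, R a := by
  by_contra hcon
  push Not at hcon
  refine h V ho hne hVU ?_
  exact Filter.mem_of_superset (mst_iff.1 hR) fun a ha haAV => hcon a haAV (ha haAV.2)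

theorem not_meagre_open [BaireSpace Y] {U : Set Y} (ho : IsOpen U) (hne : U.Nonempty) :
    ¬IsMeagre U := fun hm => by
  obtain ⟨x, hxU, hx⟩ := (dense_of_mem_residual hm).inter_open_nonempty U ho hne
  exact hx hxU

theorem exists_fat_self [SecondCountableTopology Y] {A U : Set Y} (ho : IsOpen U)
    (h : ¬IsMeagre (A ∩ U)) : ∃ V, IsOpen V ∧ V.Nonempty ∧ V ⊆ U ∧ Fat A V := by
  by_contra hcon
  push Not at hcon
  obtain ⟨b, hbc, hbne, hb⟩ := TopologicalSpace.exists_countable_basis Y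
  let good := {B ∈ b | IsMeagre (A ∩ B)}
  have hgc : good.Countable := hbc.mono fun _ hB => hB.1
  let O := ⋃₀ good ∪ (closure U)ᶜ
  have hOo : IsOpen O := (isOpen_sUnion fun B hB => hb.isOpen hB.1).union isClosed_closure.isOpen_compl
  have hOd : Dense O := by
    refine dense_iff_inter_open.2 fun N hN hNne => ?_
    by_cases hNU : (N ∩ U).Nonempty
    · have hnf := hcon (N ∩ U) (hN.inter ho) hNU inter_subset_right
      simp only [Fat, not_forall, not_not] at hnf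
      obtain ⟨W, hWo, ⟨x, hx⟩, hWsub, hWm⟩ := hnf
      obtain ⟨B, hBb, hxB, hBW⟩ := hb.exists_subset_of_mem_open hx hWo
      refine ⟨x, (hWsub hx).1, Or.inl ⟨B, ⟨hBb, hWm.mono (inter_subset_inter_right _ hBW)⟩, hxB⟩⟩
    · obtain ⟨x, hx⟩ := hNne
      refine ⟨x, hx, Or.inr fun hcl => hNU ?_⟩
      exact mem_closure_iff.1 hcl N hN hx
  refine h ?_
  have h1 : IsMeagre (⋃ B ∈ good, A ∩ B) := isMeagre_biUnion hgc fun B hB => hB.2
  have h2 : IsMeagre Oᶜ := by
    show Oᶜᶜ ∈ residual Y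
    rw [compl_compl]
    exact residual_of_dense_open hOo hOd
  refine (h1.union h2).mono fun a ha => ?_
  by_cases haO : a ∈ O
  · rcases haO with ⟨B, hB, haB⟩ | hcl
    · exact Or.inl (mem_biUnion hB ⟨ha.1, haB⟩)
    · exact absurd (subset_closure ha.2) hcl
  · exact Or.inr haO

theorem exists_fat {ι : Type*} [Countable ι] [SecondCountableTopology Y] {S U : Set Y}
    {T : ι → Set Y} (ho : IsOpen U) (h : ¬IsMeagre (S ∩ U)) (hcov : ∀ a ∈ S ∩ U, ∃ i, a ∈ T i) :
    ∃ i V, IsOpen V ∧ V.Nonempty ∧ V ⊆ U ∧ Fat (T i ∩ S) V := by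
  by_cases hm : ∀ i, IsMeagre (T i ∩ S ∩ U)
  · refine absurd ((isMeagre_iUnion hm).mono fun a ha => ?_) h
    obtain ⟨i, hi⟩ := hcov a ha
    exact mem_iUnion.2 ⟨i, ⟨hi, ha.1⟩, ha.2⟩
  · push Not at hm
    obtain ⟨i, hi⟩ := hm
    exact ⟨i, exists_fat_self ho hi⟩

theorem Fat.prod [SecondCountableTopology Z] {A U : Set Y} {B V : Set Z}
    (hA : Fat A U) (hB : Fat B V) : Fat (A ×ˢ B) (U ×ˢ V) := by
  intro W hWo ⟨⟨a₀, b₀⟩, hab⟩ hWsub hm
  obtain ⟨U', V', hU', hV', ha₀, hb₀, hsub⟩ := isOpen_prod_iff.1 hWo a₀ b₀ hab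
  have hR : ∀ᶠ p in Mst (U' ×ˢ V'), p ∉ (A ×ˢ B) ∩ W := mst_of_residual hm
  have hU'sub : U' ⊆ U := fun a ha => (hWsub (hsub (Set.mk_mem_prod ha hb₀))).1
  have hV'sub : V' ⊆ V := fun b hb => (hWsub (hsub (Set.mk_mem_prod ha₀ hb))).2
  obtain ⟨a, ha, hs⟩ := hA.exists_mem hU' ⟨a₀, ha₀⟩ hU'sub (mst_sections hR)
  obtain ⟨b, hb, hn⟩ := hB.exists_mem hV' ⟨b₀, hb₀⟩ hV'sub hs
  exact hn ⟨⟨ha.1, hb.1⟩, hsub ⟨ha.2, hb.2⟩⟩

theorem mst_of_fat {T U D : Set Y} (h : Fat T U) (ho : IsOpen U) (hTD : T ⊆ D) (hD : IsGδ D) :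
    ∀ᶠ a in Mst U, a ∈ D := by
  have hd : Dense (D ∪ (closure U)ᶜ) := by
    refine dense_iff_inter_open.2 fun N hN hNne => ?_
    by_cases hNU : (N ∩ U).Nonempty
    · obtain ⟨x, hxT, hx⟩ := nonempty_of_not_isMeagre (h _ (hN.inter ho) hNU inter_subset_right)
      exact ⟨x, hx.1, Or.inl (hTD hxT)⟩
    · obtain ⟨x, hx⟩ := hNne
      exact ⟨x, hx, Or.inr fun hcl => hNU (mem_closure_iff.1 hcl N hN hx)⟩
  have hres := residual_of_dense_Gδ (hD.union isClosed_closure.isOpen_compl.isGδ) hd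
  exact mst_iff.2 (Filter.mem_of_superset hres fun a ha haU =>
    ha.resolve_right (not_not.2 (subset_closure haU)))

theorem fat_image {h : Y → Z} (hc : Continuous h) (ho : IsOpenMap h) {T U : Set Y} {A : Set Z}
    (hU : IsOpen U) (hT : Fat T U) (hm : MapsTo h T A) : Fat A (h '' U) := by
  intro W hWo ⟨z, hz⟩ hWsub hmg
  obtain ⟨y, hyU, rfl⟩ := hWsub hz
  refine hT (U ∩ h ⁻¹' W) (hU.inter (hWo.preimage hc)) ⟨y, hyU, hz⟩ inter_subset_left ?_
  have hpre : IsMeagre (h ⁻¹' (A ∩ W)) := residual_preimage hc ho hmg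
  refine IsMeagre.mono (fun a ha => ?_) hpre
  exact ⟨hm ha.1, ha.2.2⟩

/-! ## cylinders and translations -/

theorem cylinder_nonempty (x : Cantor) (n : ℕ) : (cylinder x n).Nonempty :=
  ⟨x, self_mem_cylinder _ _⟩

theorem cylinder_subset_of_open {O : Set Cantor} (ho : IsOpen O) (hne : O.Nonempty) (k : ℕ) :
    ∃ x n, k ≤ n ∧ cylinder x n ⊆ O := by
  obtain ⟨x, hx⟩ := hne
  obtain ⟨n, hkn, hn⟩ := exists_cylinder_subset ho hx k
  exact ⟨x, n, hkn, hn⟩

theorem cylinder_congr {x y : Cantor} {n : ℕ} (h : y ∈ cylinder x n) :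
    cylinder y n = cylinder x n := mem_cylinder_iff_eq.1 h

theorem mapsTo_xr {y c e : Cantor} {m : ℕ} (he : ∀ j < m, e j = xor (y j) (c j)) :
    MapsTo (fun a => xr a e) (cylinder y m) (cylinder c m) := fun a ha j hj => by
  simp [xr, ha j hj, he j hj]

theorem mapsTo_xr_low {c e : Cantor} {m : ℕ} (he : ∀ j < m, e j = false) :
    MapsTo (fun a => xr a e) (cylinder c m) (cylinder c m) := fun a ha j hj => by
  simp [xr, ha j hj, he j hj]

theorem tendsto_xr {U V : Set Cantor} {e : Cantor} (hm : MapsTo (fun a => xr a e) U V) :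
    Tendsto (fun a => xr a e) (Mst U) (Mst V) :=
  tendsto_mst (continuous_xr_right e) (isOpenMap_xr_right e) hm

theorem xr_assoc (a b c : Cantor) : xr (xr a b) c = xr a (xr b c) := by
  funext i; simp [xr, Bool.xor_assoc]

theorem xr_comm (a b : Cantor) : xr a b = xr b a := by
  funext i; simp [xr, Bool.xor_comm]

theorem xr_self_right (a b : Cantor) : xr (xr a b) b = a := xr_cancel_right a b

/-! ## parameters -/

variable {π : Auto} {v P Q R : Cantor}

theorem Ok.of_le (h : Ok π v P) (hQ : TLe Q P) : Ok π v Q := fun hle =>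
  h (tle_trans hle (tle_join (tle_join_left _ _) (tle_trans hQ (tle_join_right _ _))))

theorem Ext.trans (h : Ext π v P Q) (h' : Ext π v Q R) : Ext π v P R :=
  ⟨tle_trans h.1 h'.1, h'.2⟩

theorem Ext.refl (h : Ok π v P) : Ext π v P P := ⟨tle_refl P, h⟩

theorem ok_zero_iff : Ok π v zero ↔ ¬TLe (π.g v) v := by
  refine not_congr ⟨fun h => tle_trans h (tle_join (tle_refl v) ?_), fun h =>
    tle_trans h (tle_join_left _ _)⟩
  have e : xr v v = zero := funext fun n => by simp [zero, xr]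
  exact e ▸ tle_trans (tle_xr v v) (tle_join (tle_refl v) (tle_refl v))

theorem ok_join (havoid : AvoidPin) (h : Ok π v P) :
    ∀ᶠ a in residual Cantor, Ok π v (join P a) :=
  (havoid _ _ h).mono fun a ha hle => ha (tle_trans hle (tle_join
    (tle_trans (tle_join_left v P) (tle_join_left _ _))
    (tle_join (tle_trans (tle_join_right v P) (tle_join_left _ _)) (tle_join_right _ _))))

/-- Choose the next parameter in a fat set, keeping the avoidance. -/
theorem Ok.pick (havoid : AvoidPin) (h : Ok π v P) {A U V : Set Cantor} (hA : Fat A U)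
    (ho : IsOpen V) (hne : V.Nonempty) (hVU : V ⊆ U) {S : Cantor → Prop}
    (hS : ∀ᶠ a in Mst V, S a) : ∃ a ∈ A ∩ V, S a ∧ Ext π v P (join P a) := by
  obtain ⟨a, ha, hSa, hok⟩ :=
    hA.exists_mem ho hne hVU (hS.and (mst_of_residual (ok_join havoid h)))
  exact ⟨a, ha, hSa, tle_join_left _ _, hok⟩

theorem Atlas.val_le (𝒜 : Atlas π) {i : 𝒜.ι} {a : Cantor} (ha : a ∈ 𝒜.A i) (hQ : TLe a Q) :
    TLe (𝒜.F i a) (π.f Q) := tle_trans (𝒜.val i a ha).1 ((π.le_f _ _).2 hQ)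

theorem Atlas.exists_fat_chart (𝒜 : Atlas π) {U : Set Cantor} (ho : IsOpen U) (hne : U.Nonempty) :
    ∃ i V, IsOpen V ∧ V.Nonempty ∧ V ⊆ U ∧ Fat (𝒜.A i) V := by
  obtain ⟨i, V, hVo, hVne, hVU, hV⟩ := exists_fat (T := 𝒜.A) (S := univ) ho
    (by rw [univ_inter]; exact not_meagre_open ho hne) fun a _ => 𝒜.cover a
  exact ⟨i, V, hVo, hVne, hVU, hV.mono inter_subset_left subset_rfl⟩

/-! ## rules for moves and machines -/

theorem RedOn.param {α : Type*} {l : Filter α} {p : α → Cantor} {x : Cantor}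
    (h : TLe x (π.f P)) : RedOn l (fun a => join (p a) (π.f P)) fun _ => x :=
  RedOn.right.trans (RedOn.const h)

variable {𝒜 : Atlas π} {l i k : 𝒜.ι} {U W : Set Cantor} {e d C : Cantor} {s : ℕ → ℕ}

theorem Move.upgrade (h : Move 𝒜 P l i U e) (hP : TLe P Q) : Move 𝒜 Q l i U e :=
  RedOn.upgrade π h hP

theorem Move.mono (h : Move 𝒜 P l i U e) {V : Set Cantor} (hV : V ⊆ U) : Move 𝒜 P l i V e :=
  RedOn.mono h (mst_mono hV)

theorem Mach.upgrade (h : Mach 𝒜 P s l U C) (hP : TLe P Q) : Mach 𝒜 Q s l U C :=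
  RedOn.upgrade π h hP

theorem Mach.mono (h : Mach 𝒜 P s l U C) {V : Set Cantor} (hV : V ⊆ U) : Mach 𝒜 P s l V C :=
  RedOn.mono h (mst_mono hV)

theorem Read.upgrade (h : Read 𝒜 P s l U) (hP : TLe P Q) : Read 𝒜 Q s l U :=
  RedOn.upgrade π h hP

theorem Read.mono (h : Read 𝒜 P s l U) {V : Set Cantor} (hV : V ⊆ U) : Read 𝒜 P s l V :=
  RedOn.mono h (mst_mono hV)

theorem Move.comp (h : Move 𝒜 P l i U e) (h' : Move 𝒜 P i k W d)
    (hm : MapsTo (fun a => xr a e) U W) : Move 𝒜 P l k U (xr e d) :=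
  ((RedOn.pair h RedOn.right).trans (RedOn.map h' (tendsto_xr hm))).congr
    (Eventually.of_forall fun _ => rfl) (Eventually.of_forall fun a => by rw [xr_assoc])

theorem Mach.comp (h : Move 𝒜 P l i U e) (h' : Mach 𝒜 P s i W C)
    (hm : MapsTo (fun a => xr a e) U W) :
    Mach 𝒜 P s l U fun n => xor (e (s n)) (C n) :=
  ((RedOn.pair h RedOn.right).trans (RedOn.map h' (tendsto_xr hm))).congr
    (Eventually.of_forall fun _ => rfl) (Eventually.of_forall fun a => funext fun n => by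
      simp [xr, Bool.xor_assoc])

end Vale.Agent.P327.Full
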